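import Vale.Agent.N086.Mat
import Mathlib.Analysis.Fourier.AddCircle
import Mathlib.MeasureTheory.Function.Holder
import Mathlib.MeasureTheory.Measure.Haar.Unique

/-!
The algebra `L(ℤ)` as functions on the circle: multiplication operators, and three special
unitaries `V`, `W`, `S`.
-/

open scoped InnerProductSpace ENNReal

namespace Vale.Agent.N086

open Vale.Agent.P086 Vale.Agent.P086.H677 MeasureTheory AddCircle

/-- the circle -/
abbrev T : Type := AddCircle (1 : ℝ)

/-- the infinite cyclic group -/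
abbrev Zm : Type := Multiplicative ℤ

/-- Haar measure -/
noncomputable abbrev mu : Measure T := haarAddCircle

/-- square integrable functions -/
abbrev E2 : Type := Lp ℂ 2 mu

/-- measurable self-maps of the circle -/
def U : AddSubgroup (T → T) where
  carrier := {h | Measurable h}
  add_mem' := fun h k => Measurable.add h k
  zero_mem' := measurable_const
  neg_mem' := fun h => Measurable.neg h

/-- the function of modulus one given by a self-map of the circle -/
noncomputable def ch (h : U) (x : T) : ℂ := toCircle (h.1 x)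

theorem ch_add (h k : U) (x : T) : ch (h + k) x = ch h x * ch k x := by
  rw [ch, ch, ch, ← Circle.coe_mul, ← toCircle_add]
  rfl

theorem ch_zero (x : T) : ch 0 x = 1 := fourier_zero'

theorem ch_neg (h : U) (x : T) : ch (-h) x = (starRingEnd ℂ) (ch h x) := by
  rw [ch, ch, ← Circle.coe_inv_eq_conj, ← toCircle_neg]
  rfl

theorem memLp_ch (h : U) (p : ℝ≥0∞) : MemLp (ch h) p mu :=
  MemLp.of_bound (((continuous_subtype_val.comp continuous_toCircle).measurable.comp
    h.2).aestronglyMeasurable) 1 (ae_of_all _ fun _ => (Circle.norm_coe _).le)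

/-- the class in `L²` -/
noncomputable def toL (h : U) : E2 := (memLp_ch h 2).toLp _

theorem toL_ae (h : U) : toL h =ᵐ[mu] ch h := MemLp.coeFn_toLp _

/-- the multiplication operator -/
noncomputable def mo (h : U) : E2 →L[ℂ] E2 :=
  (ContinuousLinearMap.mul ℂ ℂ).holderL mu ∞ 2 2 ((memLp_ch h ∞).toLp _)

theorem mo_ae (h : U) (f : E2) : mo h f =ᵐ[mu] fun x => ch h x * f x := by
  filter_upwards [(ContinuousLinearMap.mul ℂ ℂ).coeFn_holder (r := 2) ((memLp_ch h ∞).toLp _) f,
    (memLp_ch h ∞).coeFn_toLp] with x h1 h2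
  rw [← h2]
  exact h1

theorem mo_add (h k : U) : mo (h + k) = mo h * mo k := by
  ext f
  filter_upwards [mo_ae (h + k) f, mo_ae h (mo k f), mo_ae k f] with x h1 h2 h3
  rw [h1, ch_add, mul_assoc, ← h3]
  exact h2.symm

theorem mo_zero : mo 0 = 1 := by
  ext f
  filter_upwards [mo_ae 0 f] with x h1
  rw [h1, ch_zero, one_mul]
  rfl

theorem mo_star (h : U) : star (mo h) = mo (-h) := by
  rw [ContinuousLinearMap.star_eq_adjoint, eq_comm, ContinuousLinearMap.eq_adjoint_iff]
  intro f g
  rw [L2.inner_def, L2.inner_def]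
  refine integral_congr_ae ?_
  filter_upwards [mo_ae (-h) f, mo_ae h g] with x h1 h2
  rw [h1, h2, ch_neg]
  simp only [RCLike.inner_apply, map_mul, RCLike.conj_conj]
  ring

theorem mo_toL (h k : U) : mo h (toL k) = toL (h + k) := by
  ext
  filter_upwards [mo_ae h (toL k), toL_ae k, toL_ae (h + k)] with x h1 h2 h3
  rw [h1, h2, h3, ch_add]

/-- the Fourier basis -/
noncomputable def cb : HilbertBasis Zm ℂ E2 := fourierBasis

/-- the identity map -/
def idU : U := ⟨id, measurable_id⟩

theorem cb_eq (n : Zm) : cb n = toL (n.toAdd • idU) := by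
  have : cb n = fourierLp 2 n.toAdd := congrFun coe_fourierBasis n.toAdd
  rw [this]
  ext
  filter_upwards [coeFn_fourierLp 2 n.toAdd, toL_ae (n.toAdd • idU)] with x h1 h2
  rw [h1, h2]
  rfl

/-- the representation on `ℓ²(ℤ)` -/
noncomputable def op : Multiplicative U →* unitary (BH Zm) where
  toFun h := ⟨FF.Ph cb (mo h.toAdd), by
    rw [Unitary.mem_iff, ← map_star, ← map_mul, ← map_mul, mo_star, ← mo_add, ← mo_add,
      neg_add_cancel, add_neg_cancel, mo_zero, map_one]
    exact ⟨rfl, rfl⟩⟩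
  map_one' := Subtype.ext ((congrArg (FF.Ph cb) mo_zero).trans (map_one _))
  map_mul' h k := Subtype.ext ((congrArg (FF.Ph cb) (mo_add _ _)).trans (map_mul _ _ _))

theorem op_repr (h : Multiplicative U) (f : E2) :
    (op h : BH Zm) (cb.repr f) = cb.repr (mo h.toAdd f) := FF.Ph_apply cb _ _

theorem op_lam (n : Zm) : (op (.ofAdd (n.toAdd • idU)) : BH Zm) = lam n :=
  (FF.isLam_iff cb n _).1 fun m => by
    rw [cb_eq, cb_eq, toAdd_ofAdd, mo_toL, toAdd_mul, add_zsmul]

theorem op_mem (h : Multiplicative U) : (op h : BH Zm) ∈ LG Zm :=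
  mem_LG_of_comm_rho _ fun g => by
    have : rho g = lam g := IsoFrame.op_ext fun k => by rw [rho_dl, lam_dl, mul_comm]
    rw [this, ← op_lam, MU.sig_mul, MU.sig_mul, mul_comm]

theorem op_dl (h : Multiplicative U) : (op h : BH Zm) (dl 1) = cb.repr (toL h.toAdd) := by
  rw [← FF.repr_basis cb, op_repr, cb_eq, mo_toL, toAdd_one, zero_zsmul, add_zero]

theorem op_coef (h : Multiplicative U) (n : Zm) :
    (op h : BH Zm) (dl 1) n = ∫ x, fourier (-n.toAdd) x * ch h.toAdd x ∂mu := by
  rw [op_dl]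
  exact (fourierBasis_repr (toL h.toAdd) n.toAdd).trans (fourierCoeff_congr_ae (toL_ae _) ▸ rfl)

theorem op_inv {h k : Multiplicative U} {c : ℂ}
    (H : ∀ᵐ x ∂mu, ch h.toAdd (-x) = c * ch k.toAdd x) (n : Zm) :
    (op h : BH Zm) (dl 1) n⁻¹ = c * (op k : BH Zm) (dl 1) n := by
  rw [op_coef, op_coef, ← integral_neg_eq_self, ← integral_const_mul]
  refine integral_congr_ae ?_
  filter_upwards [H] with x hx
  rw [hx, toAdd_inv, fourier_apply, fourier_apply, neg_neg, smul_neg, neg_zsmul]
  ring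

/-! ### The angle -/

/-- the representative in `(-1/2, 1/2]` -/
noncomputable def ang (x : T) : ℝ := equivIoc 1 (-1 / 2) x

theorem ang_mem (x : T) : -1 / 2 < ang x ∧ ang x ≤ 1 / 2 := by
  have := (equivIoc 1 (-1 / 2) x).2
  exact ⟨this.1, this.2.trans (by norm_num)⟩

theorem coe_ang (x : T) : (ang x : T) = x := coe_equivIoc

theorem ang_coe {r : ℝ} (h1 : -1 / 2 < r) (h2 : r ≤ 1 / 2) : ang r = r :=
  equivIoc_coe_of_mem ⟨h1, h2.trans (by norm_num)⟩

theorem meas_ang : Measurable ang :=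
  measurable_subtype_coe.comp (measurableEquivIoc 1 (-1 / 2)).measurable

theorem ae_ang (c : ℝ) : ∀ᵐ x ∂mu, ang x ≠ c := by
  have : Nontrivial T := ⟨((0 : ℝ) : T), ((1 / 2 : ℝ) : T), fun h => by
    have h1 := congrArg ang h
    rw [ang_coe (by norm_num) (by norm_num), ang_coe (by norm_num) (by norm_num)] at h1
    norm_num at h1⟩
  filter_upwards [Measure.ae_ne mu (c : T)] with x hx h
  exact hx (by rw [← h, coe_ang])

theorem ang_neg {x : T} (h : ang x ≠ 1 / 2) : ang (-x) = -ang x := by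
  have := ang_mem x
  conv_lhs => rw [← coe_ang x, ← coe_neg]
  exact ang_coe (by have := lt_of_le_of_ne this.2 h; linarith) (by linarith)

/-- the self-map of the circle given by a real function of the angle -/
noncomputable def ofR (f : ℝ → ℝ) (hf : Measurable f) : U :=
  ⟨fun x => (f (ang x) : T), AddCircle.measurable_mk'.comp (hf.comp meas_ang)⟩

/-- the folding map -/
noncomputable def V : U := ofR (fun r => 2 * |r|) (by fun_prop)

/-- the sign -/
noncomputable def W : U := ofR (fun r => if 0 ≤ r then 0 else 1 / 2)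
  (Measurable.ite measurableSet_Ici measurable_const measurable_const)

/-- the square root -/
noncomputable def S : U := ofR (fun r => r / 2) (by fun_prop)

theorem half : ((1 / 2 : ℝ) : T) + ((1 / 2 : ℝ) : T) = 0 := by
  rw [← coe_add, add_halves, coe_period]

theorem ch_W (x : T) : ch W x = if 0 ≤ ang x then 1 else -1 := by
  simp only [ch, W, ofR]
  split_ifs
  · exact fourier_zero'
  · rw [toCircle_apply_mk, Circle.coe_exp, ← Complex.exp_pi_mul_I]
    congr 1
    push_cast
    ring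

theorem WW : W + W = 0 := Subtype.ext (funext fun x => by
  simp only [W, ofR, AddSubgroup.coe_add, Pi.add_apply]
  split_ifs
  · exact add_zero _
  · exact half)

theorem SS : S + S = (1 : ℤ) • idU := Subtype.ext (funext fun x => by
  simp only [S, ofR, AddSubgroup.coe_add, Pi.add_apply, one_zsmul]
  rw [← coe_add, add_halves, coe_ang]
  rfl)

theorem V_neg : ∀ᵐ x ∂mu, V.1 (-x) = V.1 x := by
  filter_upwards [ae_ang (1 / 2)] with x hx
  simp only [V, ofR, ang_neg hx, abs_neg]

theorem W_neg : ∀ᵐ x ∂mu, ch W (-x) = -1 * ch W x := by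
  filter_upwards [ae_ang (1 / 2), ae_ang 0] with x hx h0
  rw [ch_W, ch_W, ang_neg hx]
  rcases lt_or_gt_of_ne h0 with h | h
  · rw [if_pos (by linarith), if_neg (by linarith)]
    ring
  · rw [if_neg (by linarith), if_pos (by linarith)]
    ring

theorem S_neg : ∀ᵐ x ∂mu, ch S (-x) = 1 * ch (-S) x := by
  filter_upwards [ae_ang (1 / 2)] with x hx
  simp only [ch, S, ofR, ang_neg hx, one_mul, neg_div, coe_neg]
  rfl

theorem V_mp : MeasurePreserving V.1 mu mu := by
  let c : T := ((-1 / 2 : ℝ) : T)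
  let P : Set T := {x | ang x < 0}
  have hP : MeasurableSet P := measurableSet_lt meas_ang measurable_const
  have h1 : ∀ x ∈ P, c - x ∈ P := fun x hx => by
    have := ang_mem x
    have hx' : ang x < 0 := hx
    change ang (c - x) < 0
    rw [← coe_ang x, ← coe_sub, ang_coe (by linarith) (by linarith)]
    linarith
  have h2 : ∀ x, V.1 x = (2 : ℤ) • P.piecewise (fun x => c - x) id x := fun x => by
    by_cases hx : x ∈ P
    · have hx' : ang x < 0 := hx
      rw [Set.piecewise_eq_of_mem _ _ _ hx, smul_sub, ← coe_zsmul, ← coe_ang x, ← coe_zsmul]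
      simp only [V, ofR, coe_ang, abs_of_neg hx']
      norm_num [coe_period]
    · have hx' : 0 ≤ ang x := not_lt.1 hx
      rw [Set.piecewise_eq_of_notMem _ _ _ hx, id, ← coe_ang x, ← coe_zsmul]
      simp only [V, ofR, coe_ang, abs_of_nonneg hx']
      norm_num
  have h3 : Measurable (P.piecewise (fun x => c - x) id) :=
    Measurable.piecewise hP (by fun_prop) measurable_id
  rw [funext h2]
  refine (Measure.measurePreserving_zsmul mu two_ne_zero).comp ⟨h3, Measure.ext fun s hs => ?_⟩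
  rw [Measure.map_apply h3 hs, ← measure_inter_add_sdiff _ hP, ← measure_inter_add_sdiff s hP,
    ← (mu.measurePreserving_sub_left c).measure_preimage (hs.inter hP).nullMeasurableSet]
  congr 2
  · ext x
    refine ⟨fun h => ?_, fun h => ?_⟩
    · exact ⟨by simpa [h.2] using h.1, h1 x h.2⟩
    · have : x ∈ P := by simpa using h1 _ h.2
      exact ⟨by simpa [this] using h.1, this⟩
  · ext x
    refine ⟨fun h => ⟨by simpa [h.2] using h.1, h.2⟩, fun h => ⟨by simpa [h.2] using h.1, h.2⟩⟩

theorem ch_zsmul (n : ℤ) (h : U) (x : T) : ch (n • h) x = fourier n (h.1 x) := rfl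

theorem tau_V {n : ℤ} (hn : n ≠ 0) : tau (op (.ofAdd V ^ n) : BH Zm) = 0 := by
  refine (op_coef _ 1).trans ?_
  simp only [toAdd_one, neg_zero, fourier_zero, one_mul, toAdd_zpow, toAdd_ofAdd, ch_zsmul]
  rw [← integral_map V_mp.measurable.aemeasurable (fourier n).continuous.aestronglyMeasurable,
    V_mp.map_eq]
  exact integral_eq_zero_of_add_right_eq_neg (fourier_add_half_inv_index hn one_pos)

theorem tau_VW (n : ℤ) : tau (op (.ofAdd V ^ n * .ofAdd W) : BH Zm) = 0 := by
  have := op_inv (h := .ofAdd V ^ n * .ofAdd W) (k := .ofAdd V ^ n * .ofAdd W) (c := -1) (by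
    filter_upwards [V_neg, W_neg] with x h1 h2
    simp only [toAdd_mul, toAdd_zpow, toAdd_ofAdd, ch_add, ch_zsmul, h1, h2]
    ring) 1
  rw [inv_one, neg_one_mul] at this
  exact self_eq_neg.1 this

theorem top_of {H : Submodule ℂ E2} (hc : IsClosed (H : Set E2))
    (h : ∀ n : ℤ, toL (n • idU) ∈ H) (f : E2) : f ∈ H := by
  refine Submodule.topologicalClosure_minimal _ (Submodule.span_le.2 ?_) hc
    (cb.dense_span.ge Submodule.mem_top)
  rintro _ ⟨n, rfl⟩
  rw [cb_eq]
  exact h _

/-- composition with the folding map -/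
noncomputable def Cv : E2 →L[ℂ] E2 :=
  (Lp.compMeasurePreservingₗᵢ ℂ V.1 V_mp).toContinuousLinearMap

theorem Cv_ae (h : U) : Cv (toL h) =ᵐ[mu] ch h ∘ V.1 :=
  (Lp.coeFn_compMeasurePreserving (toL h) V_mp).trans
    (V_mp.quasiMeasurePreserving.ae_eq_comp (toL_ae h))

theorem Cv_id (n : ℤ) : Cv (toL (n • idU)) = toL (n • V) :=
  Lp.ext ((Cv_ae _).trans (toL_ae (n • V)).symm)

/-- a section of the folding map -/
noncomputable def sec : U := ⟨fun x => (ang (x - ((1 / 2 : ℝ) : T)) / 2 + 1 / 4 : ℝ),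
  AddCircle.measurable_mk'.comp (by have := meas_ang; fun_prop)⟩

theorem sec_V {x : T} (hx : ang x ≠ 0) : sec.1 (V.1 x) = (|ang x| : ℝ) := by
  have h5 := ang_mem x
  have h6 : |ang x| ≤ 1 / 2 := abs_le.2 ⟨by linarith, h5.2⟩
  have h7 := abs_pos.2 hx
  simp only [sec, V, ofR]
  rw [← coe_sub, ang_coe (by linarith) (by linarith)]
  congr 1
  ring

theorem id_eq (n : ℤ) : toL (n • idU) = (1 / 2 : ℂ) • (Cv (toL (n • sec)) +
    mo W (Cv (toL (n • sec))) + (Cv (toL (-n • sec)) - mo W (Cv (toL (-n • sec))))) := by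
  have h1 := Cv_ae (n • sec)
  have h2 := Cv_ae (-n • sec)
  generalize Cv (toL (n • sec)) = f at h1 ⊢
  generalize Cv (toL (-n • sec)) = g at h2 ⊢
  ext
  filter_upwards [toL_ae (n • idU), h1, h2, mo_ae W f, mo_ae W g, ae_ang 0,
    Lp.coeFn_smul (1 / 2 : ℂ) (f + mo W f + (g - mo W g)), Lp.coeFn_add (f + mo W f) (g - mo W g),
    Lp.coeFn_add f (mo W f), Lp.coeFn_sub g (mo W g)] with x e1 e2 e3 e4 e5 e6 e7 e8 e9 e10
  rw [e7, Pi.smul_apply, e8, Pi.add_apply, e9, e10, Pi.add_apply, Pi.sub_apply, e4, e5, e1, e2,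
    e3, ch_W, Function.comp, Function.comp, ch_zsmul, ch_zsmul, ch_zsmul, sec_V e6, smul_eq_mul]
  change fourier n x = _
  split_ifs with h
  · rw [abs_of_nonneg h, coe_ang]
    ring
  · rw [abs_of_neg (not_le.1 h), coe_neg, coe_ang, fourier_apply (n := -n), smul_neg, neg_zsmul,
      neg_neg, ← fourier_apply]
    ring

/-- the two unitaries `V`, `W` generate -/
theorem dense_VW {H : Submodule ℂ (Ell2 Zm)} (hc : IsClosed (H : Set (Ell2 Zm)))
    (h1 : ∀ n : ℤ, (op (.ofAdd V ^ n) : BH Zm) (dl 1) ∈ H)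
    (h2 : ∀ n : ℤ, (op (.ofAdd V ^ n * .ofAdd W) : BH Zm) (dl 1) ∈ H) (ξ : Ell2 Zm) : ξ ∈ H := by
  have key : ∀ A : E2 →L[ℂ] E2, (∀ n : ℤ, cb.repr (A (toL (n • idU))) ∈ H) →
      ∀ f, cb.repr (A f) ∈ H := fun A hA =>
    top_of (H := H.comap ((cb.repr.toLinearEquiv : E2 →ₗ[ℂ] Ell2 Zm) ∘ₗ (A : E2 →ₗ[ℂ] E2)))
      (hc.preimage (cb.repr.continuous.comp A.continuous)) hA
  have h3 := key Cv fun n => by
    rw [Cv_id]
    exact op_dl _ ▸ h1 n
  have h4 := key (mo W ∘L Cv) fun n => by
    rw [ContinuousLinearMap.comp_apply, Cv_id, mo_toL, add_comm]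
    exact op_dl _ ▸ h2 n
  rw [← cb.repr.apply_symm_apply ξ]
  refine key (ContinuousLinearMap.id ℂ E2) (fun n => ?_) _
  rw [ContinuousLinearMap.id_apply, id_eq, map_smul, map_add, map_add, map_sub]
  exact H.smul_mem _ (add_mem (add_mem (h3 _) (h4 _)) (sub_mem (h3 _) (h4 _)))

end Vale.Agent.N086
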