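import Vale.Agent.P086L.Defs
import Mathlib.LinearAlgebra.Matrix.ConjTranspose
import Mathlib.Algebra.Star.StarProjection
import Mathlib.Algebra.Star.NonUnitalSubalgebra
import Mathlib.GroupTheory.Coprod.Basic
import Mathlib.Data.ZMod.Basic

/-!
Group von Neumann algebras, corners and amplifications, as in the problem text.
-/

namespace Vale.Agent.N086

open Vale.Agent.P086L (B Alg L2 bicomm vec)

/-- Two star algebras are star isomorphic. -/
def Iso (A A' : Type) [NonUnitalRing A] [StarRing A] [Module ℂ A] [NonUnitalRing A'] [StarRing A']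
    [Module ℂ A'] : Prop :=
  Nonempty (A ≃⋆ₐ[ℂ] A')

section
variable {A A' : Type} [Ring A] [StarRing A] [Algebra ℂ A] [StarModule ℂ A]
  [Ring A'] [StarRing A'] [Algebra ℂ A'] [StarModule ℂ A']

/-- The corner `p A p` of a projection `p`. -/
def corner (p : A) (hp : IsStarProjection p) : NonUnitalStarSubalgebra ℂ A where
  carrier := Set.range fun y => p * y * p
  add_mem' := by
    rintro _ _ ⟨x, rfl⟩ ⟨y, rfl⟩
    exact ⟨x + y, by simp only [mul_add, add_mul]⟩
  zero_mem' := ⟨0, by simp⟩
  mul_mem' := by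
    rintro _ _ ⟨x, rfl⟩ ⟨y, rfl⟩
    exact ⟨x * p * (p * y), by simp only [mul_assoc]⟩
  smul_mem' := by
    rintro c _ ⟨x, rfl⟩
    exact ⟨c • x, by simp⟩
  star_mem' := by
    rintro _ ⟨x, rfl⟩
    exact ⟨star x, by simp only [star_mul, hp.isSelfAdjoint.star_eq, mul_assoc]⟩

/-- The corner `p A p` is star isomorphic to `A'`. -/
def CornerIso (p : A) (hp : IsStarProjection p) (A' : Type) [Ring A'] [StarRing A']
    [Algebra ℂ A'] : Prop :=
  Iso (corner p hp) A'

/-- For some integer `k ≥ t` and some projection `p` in `M_k(A)` with `(Tr_k ⊗ τ)(p) = t` the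
corner `p M_k(A) p` is star isomorphic to `A'`. -/
def Amp (τ : A → ℂ) (t : ℝ) (A' : Type) [Ring A'] [StarRing A'] [Algebra ℂ A'] : Prop :=
  ∃ (k : ℕ) (p : Matrix (Fin k) (Fin k) A) (hp : IsStarProjection p),
    t ≤ k ∧ ∑ i, τ (p i i) = t ∧ CornerIso p hp A'

/-- `Amp` for star subalgebras. -/
def SubAmp (M : StarSubalgebra ℂ A) (τ : A → ℂ) (t : ℝ) (N : StarSubalgebra ℂ A') : Prop :=
  Amp (fun x : M => τ x) t N

/-- `Iso` for star subalgebras. -/
def SubIso (M : StarSubalgebra ℂ A) (N : StarSubalgebra ℂ A') : Prop := Iso M N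

end

section
variable {G H E E' : Type} [Group G] [Group H]
  [NormedAddCommGroup E] [InnerProductSpace ℂ E] [CompleteSpace E]
  [NormedAddCommGroup E'] [InnerProductSpace ℂ E'] [CompleteSpace E']

/-- The double commutant of the operators `λ(g)`, `λ(g) δ_h = δ_{g h}`. -/
noncomputable def vN (δ : G → E) : Alg E := bicomm {T | ∃ g : G, ∀ h, T (δ h) = δ (g * h)}

/-- The algebras `vN δ` and `vN δ'` are star isomorphic. -/
def VIso (δ : G → E) (δ' : H → E') : Prop := SubIso (vN δ) (vN δ')

/-- The amplification by `t` of `vN δ`, with the trace `⟨x δ_e, δ_e⟩`, is star isomorphic to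
`vN δ'`. -/
def VAmp (δ : G → E) (t : ℝ) (δ' : H → E') : Prop := SubAmp (vN δ) (vec (δ 1)) t (vN δ')

end

open Classical in
/-- The vector `δ_h` of `ℓ²(G)`. -/
noncomputable def del (G : Type) (h : G) : L2 G := lp.single 2 h (1 : ℂ)

theorem complete (G : Type) : CompleteSpace (L2 G) := inferInstance

/-- `L(G)` and `L(H)` are star isomorphic. -/
def LIso (G H : Type) [Group G] [Group H] : Prop :=
  haveI := complete G
  haveI := complete H
  VIso (del G) (del H)

/-- `L(G)^t` and `L(H)` are star isomorphic. -/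
def LAmp (G : Type) [Group G] (t : ℝ) (H : Type) [Group H] : Prop :=
  haveI := complete G
  haveI := complete H
  VAmp (del G) t (del H)

/-- The group of order two. -/
abbrev C2 : Type := Multiplicative (ZMod 2)

end Vale.Agent.N086
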