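import Vale.Agent.N086.Circ
import Vale.Agent.P086.H677.FreeProd

/-!
Let `G` be generated by an involution `a` and a subgroup `ℤ * H₀ * H₁` of index two, where `a`
inverts the generator `t` of `ℤ`, `a` commutes with `H₀` and `a t` commutes with `H₁`. Then `L(G)`
is the algebra of two by two matrices over `L(ℤ * H₀ * H₀ * H₁ * H₁)`.
-/

set_option linter.unusedSectionVars false

open scoped InnerProductSpace

namespace Vale.Agent.N086

open Vale.Agent.P086 Vale.Agent.P086.H677 Monoid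

variable {G : Type} [Group G]

theorem ext_LG {S T : BH G} (hS : S ∈ LG G) (hT : T ∈ LG G) (h : S (dl 1) = T (dl 1)) : S = T :=
  IsoFrame.op_ext fun g => by rw [LG_apply_dl hS, LG_apply_dl hT, h]

theorem top_dl {X : Type} {H : Submodule ℂ (Ell2 X)} (hc : IsClosed (H : Set (Ell2 X)))
    (h : ∀ x, dl x ∈ H) (ξ : Ell2 X) : ξ ∈ H :=
  hc.mem_of_tendsto (IsoFrame.hasSum_dl ξ) (Filter.Eventually.of_forall fun _ =>
    H.sum_mem fun x _ => H.smul_mem _ (h x))

/-- If `s` is a multiplicatively closed family in `L(G)`, the operators `T` with `T δ` in the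
closed span of `s δ` are closed under products. -/
theorem mul_cl {κ : Type} {s : κ → BH G} (h1 : ∀ k, s k ∈ LG G)
    (h2 : ∀ k l, s k * s l = 0 ∨ ∃ m, s k * s l = s m) {S : BH G} (hS : S ∈ LG G)
    (hS' : S (dl 1) ∈ (Submodule.span ℂ (Set.range fun k => s k (dl 1))).topologicalClosure)
    {ξ : Ell2 G} (hξ : ξ ∈ (Submodule.span ℂ (Set.range fun k => s k (dl 1))).topologicalClosure) :
    S ξ ∈ (Submodule.span ℂ (Set.range fun k => s k (dl 1))).topologicalClosure := by
  set H := Submodule.span ℂ (Set.range fun k => s k (dl 1))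
  have hc := H.isClosed_topologicalClosure
  refine Submodule.topologicalClosure_minimal (t := H.topologicalClosure.comap S.toLinearMap) _
    (Submodule.span_le.2 ?_) (hc.preimage S.continuous) hξ
  rintro _ ⟨l, rfl⟩
  have h3 : ∀ η ∈ H, ∃ x ∈ LG G, x (dl 1) = η ∧ x (s l (dl 1)) ∈ H := fun η hη => by
    induction hη using Submodule.span_induction with
    | mem _ hx =>
      obtain ⟨k, rfl⟩ := hx
      refine ⟨s k, h1 k, rfl, ?_⟩
      rw [← mul_ap]
      rcases h2 k l with h | ⟨m, h⟩ <;> rw [h]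
      · exact H.zero_mem
      · exact Submodule.subset_span ⟨m, rfl⟩
    | zero => exact ⟨0, zero_mem _, rfl, H.zero_mem⟩
    | add _ _ _ _ hx hy =>
      obtain ⟨x, a1, rfl, a2⟩ := hx
      obtain ⟨y, b1, rfl, b2⟩ := hy
      exact ⟨x + y, add_mem a1 b1, rfl, H.add_mem a2 b2⟩
    | smul c _ _ hx =>
      obtain ⟨x, a1, rfl, a2⟩ := hx
      exact ⟨c • x, (LG G).smul_mem a1 c, rfl, H.smul_mem c a2⟩
  refine Metric.mem_closure_iff.2 fun ε hε => ?_
  have h4 : 0 < ‖s l‖ + 1 := by positivity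
  obtain ⟨η, h5, h6⟩ := Metric.mem_closure_iff.1 hS' (ε / (‖s l‖ + 1)) (div_pos hε h4)
  obtain ⟨x, a1, rfl, a2⟩ := h3 η h5
  refine ⟨_, a2, ?_⟩
  rw [dist_eq_norm] at h6 ⊢
  have h7 := norm_mul_dl_le (sub_mem hS a1) (h1 l)
  rw [lt_div_iff₀ h4] at h6
  have h8 := norm_nonneg (S (dl 1) - x (dl 1))
  exact lt_of_le_of_lt h7 (by change ‖S (dl 1) - x (dl 1)‖ * _ < _; nlinarith)

/-- a projection `p` and a symmetry `w` which exchanges `p` and `1 - p` -/
structure Sym {R : Type} [Ring R] [StarRing R] (p w : R) : Prop where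
  pp : p * p = p
  ps : star p = p
  ws : star w = w
  ww : w * w = 1
  wp : w * p = w - p * w

namespace Sym

variable {R : Type} [Ring R] [StarRing R] {p w x y : R}

/-- the matrix units -/
def e (p w : R) : Fin 2 → Fin 2 → R := ![![p, p * w], ![w * p, w * p * w]]

/-- the diagonal matrix given by an element which commutes with `p` -/
def dg (p w x : R) : R := p * x + w * (p * x) * w

theorem pp' (h : Sym p w) (x : R) : p * (p * x) = p * x := by rw [← mul_assoc, h.pp]

theorem ww' (h : Sym p w) (x : R) : w * (w * x) = x := by rw [← mul_assoc, h.ww, one_mul]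

theorem pwp (h : Sym p w) : p * (w * p) = 0 := by rw [h.wp, mul_sub, h.pp', sub_self]

theorem pwp' (h : Sym p w) (x : R) : p * (w * (p * x)) = 0 := by
  rw [← mul_assoc w, ← mul_assoc, h.pwp, zero_mul]

theorem wpw (h : Sym p w) : w * (p * w) = 1 - p := by
  rw [← mul_assoc, h.wp, sub_mul, mul_assoc, h.ww, mul_one]

theorem e_mul (h : Sym p w) (i j k l : Fin 2) :
    e p w i j * e p w k l = if j = k then e p w i l else 0 := by
  fin_cases i <;> fin_cases j <;> fin_cases k <;> fin_cases l <;>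
    simp [e, mul_assoc, h.pp, h.pp', h.ww', h.pwp, h.pwp']

theorem e_star (h : Sym p w) (i j : Fin 2) : star (e p w i j) = e p w j i := by
  fin_cases i <;> fin_cases j <;> simp [e, mul_assoc, h.ps, h.ws]

theorem e_sum (h : Sym p w) : ∑ i, e p w i i = 1 := by
  simp [e, mul_assoc, h.wpw]

theorem dg_mul (h : Sym p w) (hx : x * p = p * x) : dg p w x * dg p w y = dg p w (x * y) := by
  simp only [dg, ← hx, mul_add, add_mul, mul_assoc, h.pp', h.ww', h.pwp', mul_zero, add_zero,
    zero_add]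
  simp only [← mul_assoc, hx]

theorem dg_star (h : Sym p w) (hx : x * p = p * x) : star (dg p w x) = dg p w (star x) := by
  simp only [dg, ← hx, star_add, star_mul, h.ps, h.ws, mul_assoc]

theorem dg_of (h : Sym p w) (hx : x * w = w * x) : dg p w x = x := by
  rw [dg, mul_assoc w, mul_assoc p, hx, ← mul_assoc p, ← mul_assoc, h.wpw, sub_mul, one_mul,
    add_sub_cancel]

theorem dg_w (h : Sym p w) : dg p w x * w = w * dg p w x := by
  simp only [dg, mul_add, add_mul, mul_assoc, h.ww', h.ww, mul_one, add_comm]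

theorem p_dg (h : Sym p w) : p * dg p w x = p * x := by
  simp only [dg, mul_add, mul_assoc, h.pp', h.pwp', add_zero]

theorem dg_p (h : Sym p w) (hx : x * p = p * x) : dg p w x * p = p * dg p w x := by
  rw [h.p_dg]
  simp only [dg, ← hx, add_mul, mul_assoc, h.pp, h.pwp, mul_zero, add_zero]

theorem dg_e (h : Sym p w) (hx : x * p = p * x) (i j : Fin 2) :
    dg p w x * e p w i j = e p w i j * dg p w x := by
  have h1 : Commute (dg p w x) p := h.dg_p hx
  have h2 : Commute (dg p w x) w := h.dg_w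
  fin_cases i <;> fin_cases j
  exacts [h1, h1.mul_right h2, h2.mul_right h1, (h2.mul_right h1).mul_right h2]

theorem split (h : Sym p w) :
    e p w 0 0 * dg p w x + e p w 1 1 * dg p w (w * x * w) = x := by
  change p * _ + w * p * w * _ = _
  rw [h.p_dg, mul_assoc, ← h.dg_w, ← mul_assoc, mul_assoc w, h.p_dg]
  simp only [mul_assoc, h.ww, mul_one]
  rw [← mul_assoc p, ← mul_assoc w, h.wpw, sub_mul, one_mul, add_sub_cancel]

end Sym

/-- the family `ℤ, H i` -/
def OF {ι : Type} (H : ι → Type) : Option ι → Type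
  | none => Zm
  | some i => H i

instance {ι : Type} (H : ι → Type) [∀ i, Group (H i)] : ∀ o, Group (OF H o)
  | none => inferInstanceAs (Group Zm)
  | some i => inferInstanceAs (Group (H i))

variable {H : Bool → Type} [∀ i, Group (H i)]

/-- the inclusion of `ℤ` -/
def o0 {ι : Type} (H : ι → Type) [∀ i, Group (H i)] : Zm →* CoprodI (OF H) :=
  CoprodI.of (M := OF H) (i := none)

/-- the inclusion of `H i` -/
def o1 {ι : Type} {H : ι → Type} [∀ i, Group (H i)] (i : ι) : H i →* CoprodI (OF H) :=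
  CoprodI.of (M := OF H) (i := some i)

/-- the conjugating functions -/
noncomputable def mm (j : Bool × Bool) : Multiplicative U :=
  (if j.1 then (.ofAdd S)⁻¹ else 1) * (if j.2 then .ofAdd W else 1)

theorem W_inv : (Multiplicative.ofAdd W)⁻¹ = .ofAdd W :=
  inv_eq_of_mul_eq_one_right (congrArg Multiplicative.ofAdd WW)

theorem tau_mm (n : ℤ) (j j' : Bool × Bool) (h1 : j.1 = j'.1) (h2 : n = 0 → j ≠ j') :
    tau (op (mm j * (.ofAdd V ^ n * (mm j')⁻¹)) : BH Zm) = 0 := by
  obtain ⟨i, ε⟩ := j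
  obtain ⟨i', ε'⟩ := j'
  obtain rfl : i = i' := h1
  by_cases h3 : ε = ε'
  · subst h3
    rw [mul_left_comm, mul_inv_cancel, mul_one]
    exact tau_V fun h4 => h2 h4 rfl
  · rw [← tau_VW n, mul_left_comm, mm, mm, mul_inv, mul_mul_mul_comm, mul_inv_cancel, one_mul]
    cases ε <;> cases ε' <;> simp [W_inv] at h3 ⊢

/-- the dihedral situation -/
structure DS (φ : CoprodI (OF H) →* G) (a : G) : Prop where
  inj : Function.Injective φ
  aa : a * a = 1
  nm : ∀ k, φ k ≠ a
  a0 : ∀ n, a * φ (o0 H n) = φ (o0 H n⁻¹) * a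
  a1 : ∀ f, Commute a (φ (o1 false f))
  a2 : ∀ f, Commute (a * φ (o0 H (.ofAdd 1))) (φ (o1 true f))
  gen : ∀ P : Submonoid G, a ∈ P → (∀ k, φ k ∈ P) → ∀ g, g ∈ P

open Classical in
/-- the elements whose reduced word starts in the given factor -/
def X (φ : CoprodI (OF H) →* G) (o : Option Bool) : Set G := φ '' St (H' := OF H) (some o)

namespace DS

variable {φ : CoprodI (OF H) →* G} {a : G} (h : DS φ a)
include h

theorem jinj : Function.Injective (φ.comp (o0 H)) :=
  h.inj.comp (CoprodI.of_injective (M := OF H) none)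

/-- the copy of the functions on the circle in `L(G)` -/
noncomputable def A : Multiplicative U →* unitary (BH G) := amp _ h.jinj op op_mem

theorem A_mem (u : Multiplicative U) : (h.A u : BH G) ∈ LG G := ampOp_mem _ _ (op_mem u)

theorem A_dl (u : Multiplicative U) (k : G) :
    (h.A u : BH G) (dl k) = rho k (incl _ h.jinj ((op u : BH Zm) (dl 1))) :=
  ampOp_dl _ _ (op_mem u) k

theorem A_one (u : Multiplicative U) :
    (h.A u : BH G) (dl 1) = incl _ h.jinj ((op u : BH Zm) (dl 1)) :=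
  lp.ext (funext fun g => by rw [A_dl, rho_apply, inv_one, mul_one])

theorem disj {g : G} {o o' : Option Bool} (h1 : g ∈ X φ o) (h2 : g ∈ X φ o') : o = o' := by
  obtain ⟨k, h3, rfl⟩ := h1
  obtain ⟨l, h4, h5⟩ := h2
  rw [h.inj h5] at h4
  exact Option.some_injective _ (h3.symm.trans h4)

theorem one_nm (o : Option Bool) : 1 ∉ X φ o := by
  classical
  rintro ⟨k, h1, h2⟩
  rw [(injective_iff_map_eq_one φ).1 h.inj k h2] at h1
  exact one_notMem_St o h1

theorem of_mem {o : Option Bool} {x : OF H o} (hx : x ≠ 1) {k : CoprodI (OF H)}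
    (hk : φ k ∉ X φ o) : φ (CoprodI.of x) * φ k ∈ X φ o := by
  classical
  exact ⟨_, of_mul_mem_St hx fun h1 => hk ⟨k, h1, rfl⟩, map_mul _ _ _⟩

theorem supA (u : Multiplicative U) (i : Bool) {ξ : Ell2 G} (hξ : ∀ g ∉ X φ (some i), ξ g = 0)
    {l : G} (h1 : l ∉ X φ none) (h2 : l ∈ X φ (some i) → tau (op u : BH Zm) = 0) :
    (h.A u : BH G) ξ l = 0 := by
  refine supp_apply _ (X φ (some i))ᶜ {l}ᶜ (fun k hk l' hl => ?_) ξ hξ l (by simp)
  obtain rfl : l' = l := by simpa using hl
  rw [Set.notMem_compl_iff] at hk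
  rw [A_dl, rho_apply]
  by_cases h3 : ∃ n, φ.comp (o0 H) n = l' * k⁻¹
  · obtain ⟨n, hn⟩ := h3
    rw [← hn, incl_apply]
    rw [eq_mul_inv_iff_mul_eq] at hn
    by_cases h4 : n = 1
    · rw [h4, map_one, one_mul] at hn
      rw [h4]
      exact h2 (hn ▸ hk)
    · obtain ⟨k, h5, rfl⟩ := hk
      exact absurd (hn ▸ h.of_mem (o := none) h4 fun h6 => by cases h.disj h6 ⟨k, h5, rfl⟩) h1
  · exact incl_apply_of_notMem _ _ _ (not_exists.1 h3)

theorem supD (u : Multiplicative U) {l : G} (h0 : l ≠ 1) (h1 : l ∉ X φ none) :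
    (h.A u : BH G) (dl 1) l = 0 := by
  rw [A_one]
  refine incl_apply_of_notMem _ _ _ ?_
  rintro n rfl
  have := h.of_mem (o := none) (x := n) (fun h2 => h0 ((congrArg _ h2).trans (map_one _)))
    (k := 1) (by rw [map_one]; exact h.one_nm _)
  rw [map_one, mul_one] at this
  exact h1 this

theorem A_lam (n : Zm) : (h.A (.ofAdd (n.toAdd • idU)) : BH G) = lam (φ (o0 H n)) :=
  ext_LG (h.A_mem _) (lam_mem_LG _) (by
    rw [A_one, op_lam, lam_dl, incl_dl, lam_dl, mul_one, mul_one]
    rfl)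

theorem lam_A {u v : Multiplicative U} {c : ℂ}
    (huv : ∀ n, (op u : BH Zm) (dl 1) n⁻¹ = c * (op v : BH Zm) (dl 1) n) :
    lam a * (h.A u : BH G) = c • ((h.A v : BH G) * lam a) := by
  have h0 : a⁻¹ = a := inv_eq_of_mul_eq_one_right h.aa
  refine ext_LG (mul_mem (lam_mem_LG _) (h.A_mem _))
    ((LG G).smul_mem (mul_mem (h.A_mem _) (lam_mem_LG _)) c) (lp.ext (funext fun g => ?_))
  change (h.A u : BH G) (dl 1) (a⁻¹ * g) = c * (h.A v : BH G) (lam a (dl 1)) g
  rw [lam_dl, mul_one, A_dl _ _ a, rho_apply, A_one, h0]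
  have h1 : ∀ n, φ.comp (o0 H) n⁻¹ = a * g ↔ φ.comp (o0 H) n = g * a := fun n => by
    rw [← mul_left_inj a, MonoidHom.comp_apply, ← h.a0, mul_assoc, mul_right_inj]
    rfl
  by_cases h2 : ∃ n, φ.comp (o0 H) n = g * a
  · obtain ⟨n, hn⟩ := h2
    rw [← hn, ← (h1 n).2 hn, incl_apply, incl_apply, huv]
  · rw [incl_apply_of_notMem _ _ _ (not_exists.1 h2), incl_apply_of_notMem _ _ _ fun n hn =>
      h2 ⟨n⁻¹, (h1 _).1 (by rwa [inv_inv])⟩, mul_zero]

/-- the symmetry -/
noncomputable def w : BH G := h.A (.ofAdd W)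

theorem a_w : lam a * h.w = -(h.w * lam a) := (h.lam_A (op_inv W_neg)).trans (neg_one_smul _ _)

theorem sym : Sym ((1 / 2 : ℂ) • (1 + lam a)) h.w := by
  have h1 : lam a * lam a = 1 := by rw [← lam_mul, h.aa, lam_one]
  have h2 : h.w * h.w = 1 := by
    rw [w, MU.sig_mul, ← ofAdd_add, WW]
    exact congrArg Subtype.val (map_one h.A)
  refine ⟨?_, ?_, ?_, h2, ?_⟩
  · simp only [smul_mul_assoc, mul_smul_comm, mul_add, add_mul, h1, mul_one, one_mul]
    module
  · rw [star_smul, star_add, star_one, star_lam, inv_eq_of_mul_eq_one_right h.aa]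
    simp
  · rw [w, MU.star_sig, W_inv]
  · simp only [smul_mul_assoc, mul_smul_comm, mul_add, add_mul, h.a_w, mul_one, one_mul]
    module

/-- the free family -/
noncomputable def z : CoprodI (OF fun j : Bool × Bool => H j.1) →* unitary (BH G) :=
  CoprodI.lift fun o => match o with
    | none => h.A.comp (zpowersHom _ (.ofAdd V))
    | some j => (MulAut.conj (h.A (mm j))⁻¹).toMonoidHom.comp (lamU.comp (φ.comp (o1 j.1)))

theorem z0 (n : Zm) : h.z (o0 _ n) = h.A (.ofAdd V ^ n.toAdd) :=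
  CoprodI.lift_of (M := OF fun j : Bool × Bool => H j.1) (i := none) _ _

theorem z1 (j : Bool × Bool) (f : H j.1) : h.z (o1 (H := fun j : Bool × Bool => H j.1) j f) =
    h.A (mm j)⁻¹ * lamU (φ (o1 j.1 f)) * h.A (mm j) := by
  refine (CoprodI.lift_of (M := OF fun j : Bool × Bool => H j.1) (i := some j) _ _).trans ?_
  change (h.A (mm j))⁻¹ * lamU (φ (o1 j.1 f)) * (h.A (mm j))⁻¹⁻¹ = _
  rw [map_inv, inv_inv]

theorem z_mem (k) : (h.z k : BH G) ∈ LG G := by
  induction k using CoprodI.induction_on with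
  | one => exact map_one h.z ▸ one_mem _
  | mul x y hx hy => exact map_mul h.z x y ▸ mul_mem hx hy
  | of o f =>
    cases o with
    | none => exact (h.z0 f).symm ▸ h.A_mem _
    | some j => exact (h.z1 j f).symm ▸ mul_mem (mul_mem (h.A_mem _) (lam_mem_LG _)) (h.A_mem _)

theorem z_comm (k) : Commute (h.z k) (lamU a) := by
  induction k using CoprodI.induction_on with
  | one => exact map_one h.z ▸ Commute.one_left _
  | mul x y hx hy => exact map_mul h.z x y ▸ hx.mul_left hy
  | of o f =>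
    cases o with
    | none =>
      have : Commute (lamU a) (h.A (.ofAdd V)) := Subtype.ext ((h.lam_A (op_inv (c := 1)
        (V_neg.mono fun x hx => by rw [one_mul]; simp only [ch, toAdd_ofAdd, hx]))).trans
          (one_smul _ _))
      rw [show h.z (CoprodI.of f) = _ from h.z0 f, map_zpow]
      exact (this.zpow_right _).symm
    | some j =>
      obtain ⟨i, ε⟩ := j
      have h1 : Commute (h.A (if i then (.ofAdd S)⁻¹ else 1)⁻¹ * lamU (φ (o1 i f)) *
          h.A (if i then (.ofAdd S)⁻¹ else 1)) (lamU a) := by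
        cases i
        · simpa using ((h.a1 f).map lamU).symm
        · have h2 : lamU a * h.A (.ofAdd S) = (h.A (.ofAdd S))⁻¹ * lamU a := by
            rw [← map_inv]
            exact Subtype.ext ((h.lam_A (op_inv S_neg)).trans (one_smul _ _))
          have h3 : h.A (.ofAdd S) * h.A (.ofAdd S) = lamU (φ (o0 H (.ofAdd 1))) := by
            rw [← map_mul, ← ofAdd_add, SS]
            exact Subtype.ext (h.A_lam (.ofAdd 1))
          have h4 := ((h.a2 f).map lamU).map (MulAut.conj (h.A (.ofAdd S)))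
          rw [map_mul lamU, ← h3, ← mul_assoc, h2] at h4
          simpa [mul_assoc] using h4.symm
      rw [show h.z (CoprodI.of f) = _ from h.z1 (i, ε) f, mm]
      cases ε
      · simpa using h1
      · refine Subtype.ext ?_
        have h2 : ∀ x : BH G, x * lam a = lam a * x →
            h.w * x * h.w * lam a = lam a * (h.w * x * h.w) := fun x hx => by
          rw [← mul_assoc, ← mul_assoc, h.a_w, neg_mul, mul_assoc h.w (lam a), ← hx, neg_mul,
            mul_assoc h.w (x * _), mul_assoc x, h.a_w]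
          simp only [mul_neg, neg_neg, mul_assoc]
        have h3 := h2 _ (congrArg Subtype.val h1)
        simp only [if_true, mul_inv_rev, W_inv, map_mul, mul_assoc, Submonoid.coe_mul] at h3 ⊢
        exact h3

theorem A_A (u v : Multiplicative U) (ξ : Ell2 G) :
    (h.A u : BH G) ((h.A v : BH G) ξ) = (h.A (u * v) : BH G) ξ := by rw [← mul_ap, MU.sig_mul]

theorem shape (k : CoprodI.Word (OF fun j : Bool × Bool => H j.1)) :
    ∃ n : ℤ, (n ≠ 0 → k.fstIdx = some none) ∧
      (((h.z k.prod : BH G) (dl 1) = (h.A (.ofAdd V ^ n) : BH G) (dl 1) ∧ (n = 0 → k.prod = 1)) ∨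
        ∃ j ξ, (∀ g ∉ X φ (some j.1), ξ g = 0) ∧ (n = 0 → k.fstIdx = some (some j)) ∧
          (h.z k.prod : BH G) (dl 1) = (h.A (.ofAdd V ^ n * (mm j)⁻¹) : BH G) ξ) := by
  induction k using CoprodI.Word.consRecOn with
  | empty => exact ⟨0, fun h => (h rfl).elim, .inl ⟨by simp, fun _ => rfl⟩⟩
  | cons o f k h1 h2 ih =>
    obtain ⟨n, h3, h4⟩ := ih
    rw [CoprodI.Word.prod_cons, CoprodI.Word.fstIdx_cons, ← MU.sig_mul, mul_ap]
    cases o with
    | none =>
      obtain rfl : n = 0 := by_contra fun h5 => h1 (h3 h5)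
      have h5 : (show Zm from f).toAdd ≠ 0 := h2
      rw [show h.z (CoprodI.of f) = _ from h.z0 f]
      refine ⟨_, fun _ => rfl, h4.imp (fun h6 => ⟨?_, fun h7 => (h5 h7).elim⟩)
        fun ⟨j, ξ, h6, _, h8⟩ => ⟨j, ξ, h6, fun h7 => (h5 h7).elim, ?_⟩⟩
      · rw [h6.1, A_A, zpow_zero, mul_one]
      · rw [h8, A_A, zpow_zero, one_mul]
    | some j =>
      refine ⟨0, fun h => (h rfl).elim, .inr ⟨j, lam (φ (o1 j.1 f)) ((h.A (mm j) : BH G)
        ((h.z k.prod : BH G) (dl 1))), fun g hg => ?_, fun _ => rfl, ?_⟩⟩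
      swap
      · rw [show h.z (CoprodI.of f) = _ from h.z1 j f, zpow_zero, one_mul]
        rfl
      have h5 : ∀ l, (φ (o1 j.1 f))⁻¹ * g = φ l → φ l ∈ X φ (some j.1) := fun l hl =>
        by_contra fun h6 => hg (inv_mul_eq_iff_eq_mul.1 hl ▸ h.of_mem (o := some j.1) h2 h6)
      have h6 : (φ (o1 j.1 f))⁻¹ * g ∉ X φ none := fun ⟨l, h6, h7⟩ => by
        cases h.disj (h5 l h7.symm) ⟨l, h6, rfl⟩
      rw [lam_apply]
      rcases h4 with ⟨h7, -⟩ | ⟨j', ξ, h7, h8, h9⟩
      · rw [h7, A_A]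
        exact h.supD _ (fun h8 => h.one_nm _ (map_one φ ▸ h5 1 (h8.trans (map_one φ).symm))) h6
      · rw [h9, A_A]
        refine h.supA _ _ h7 h6 fun ⟨l, h10, h11⟩ => tau_mm _ _ _ (Option.some_injective _
          (h.disj (h5 l h11.symm) ⟨l, h10, rfl⟩)) fun h12 h13 => h1 (h13 ▸ h8 h12)

theorem z_tr {k} (hk : k ≠ 1) {g : G} (hg : g = 1 ∨ g = a) : (h.z k : BH G) (dl 1) g = 0 := by
  classical
  have h1 : ∀ o, g ∉ X φ o := fun o => by
    rcases hg with rfl | rfl
    exacts [h.one_nm o, fun ⟨l, _, h2⟩ => h.nm l h2]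
  have h2 : (CoprodI.Word.equiv k).prod = k := CoprodI.Word.equiv.symm_apply_apply k
  obtain ⟨n, -, ⟨h3, h4⟩ | ⟨j, ξ, h3, -, h4⟩⟩ := h.shape (CoprodI.Word.equiv k)
  · rw [h2] at h3 h4
    rw [h3]
    rcases hg with rfl | rfl
    · rw [A_one, ← map_one (φ.comp (o0 H)), incl_apply]
      exact tau_V fun h5 => hk (h4 h5)
    · exact h.supD _ (fun h5 => h.nm 1 ((map_one φ).trans h5.symm)) (h1 _)
  · rw [← h2, h4]
    exact h.supA _ _ h3 (h1 _) fun h5 => (h1 _ h5).elim

/-- the projection -/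
noncomputable abbrev pa (a : G) : BH G := (1 / 2 : ℂ) • (1 + lam a)

theorem z_p (k) : (h.z k : BH G) * pa a = pa a * h.z k := by
  have : (h.z k : BH G) * lam a = lam a * h.z k := congrArg Subtype.val (h.z_comm k)
  simp only [smul_mul_assoc, mul_smul_comm, mul_add, add_mul, this, mul_one, one_mul]

/-- the representation which commutes with the matrix units -/
noncomputable def sg : CoprodI (OF fun j : Bool × Bool => H j.1) →* unitary (BH G) where
  toFun k := ⟨Sym.dg (pa a) h.w (h.z k), by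
    rw [Unitary.mem_iff, h.sym.dg_star (h.z_p k), MU.star_sig, h.sym.dg_mul (h.z_p _),
      h.sym.dg_mul (h.z_p _), MU.sig_mul, MU.sig_mul, inv_mul_cancel, mul_inv_cancel, map_one,
      and_self]
    exact h.sym.dg_of (Commute.one_left _)⟩
  map_one' := Subtype.ext (by
    change Sym.dg _ _ _ = _
    rw [map_one]
    exact h.sym.dg_of (Commute.one_left _))
  map_mul' k l := Subtype.ext (by
    change Sym.dg _ _ _ = _
    rw [map_mul]
    exact (h.sym.dg_mul (h.z_p _)).symm)

theorem mu : MU (Sym.e (pa a) h.w) h.sg := by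
  have hp : pa a ∈ LG G := (LG G).smul_mem (add_mem (one_mem _) (lam_mem_LG _)) _
  have hw : h.w ∈ LG G := h.A_mem _
  have he : ∀ i j, Sym.e (pa a) h.w i j ∈ LG G := fun i j => by
    fin_cases i <;> fin_cases j
    exacts [hp, mul_mem hp hw, mul_mem hw hp, mul_mem (mul_mem hw hp) hw]
  have hs : ∀ k, (h.sg k : BH G) ∈ LG G := fun k => add_mem (mul_mem hp (h.z_mem k))
    (mul_mem (mul_mem hw (mul_mem hp (h.z_mem k))) hw)
  have hc : ∀ k i j, (h.sg k : BH G) * Sym.e (pa a) h.w i j = Sym.e (pa a) h.w i j * h.sg k :=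
    fun k => h.sym.dg_e (h.z_p k)
  refine ⟨he, h.sym.e_mul, h.sym.e_star, h.sym.e_sum, hs, hc, fun k hk => ?_, ?_⟩
  · have h1 : tau (pa a * (h.z k : BH G)) = 0 := by
      rw [smul_mul_assoc, add_mul, one_mul, tau_smul, tau_add]
      change _ * ((h.z k : BH G) (dl 1) 1 + (h.z k : BH G) (dl 1) (a⁻¹ * 1)) = 0
      rw [mul_one, inv_eq_of_mul_eq_one_right h.aa, h.z_tr hk (.inl rfl), h.z_tr hk (.inr rfl),
        add_zero, mul_zero]
    change tau (_ + _) = 0
    rw [tau_add, tau_comm (mul_mem hw (mul_mem hp (h.z_mem k))) hw, h.sym.ww', h1, add_zero]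
  set s := fun z : CoprodI (OF fun j : Bool × Bool => H j.1) × Fin 2 × Fin 2 =>
    (h.sg z.1 : BH G) * Sym.e (pa a) h.w z.2.1 z.2.2
  set C := (Submodule.span ℂ (Set.range fun z => s z (dl 1))).topologicalClosure
  have h1 : ∀ {S : BH G}, S ∈ LG G → S (dl 1) ∈ C → ∀ {ξ}, ξ ∈ C → S ξ ∈ C :=
    mul_cl (fun z => mul_mem (hs _) (he _ _)) fun z y => by
      rw [mul_assoc, ← mul_assoc (Sym.e _ _ _ _), ← hc, mul_assoc, ← mul_assoc, MU.sig_mul,
        h.sym.e_mul]
      split_ifs
      exacts [.inr ⟨(_, _, _), rfl⟩, .inl (mul_zero _)]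
  have h2 : ∀ k i j, (Sym.e (pa a) h.w i j * h.sg k) (dl 1) ∈ C := fun k i j =>
    hc k i j ▸ Submodule.le_topologicalClosure _ (Submodule.subset_span ⟨(k, i, j), rfl⟩)
  have h3 : ∀ n : ℤ, (h.sg (o0 _ (.ofAdd n)) : BH G) = h.A (.ofAdd V ^ n) := fun n => by
    change Sym.dg _ _ _ = _
    rw [h.z0, h.sym.dg_of (by rw [w, MU.sig_mul, MU.sig_mul, mul_comm])]
    rfl
  have h4 : ∀ u, (h.A u : BH G) (dl 1) ∈ C := fun u => by
    rw [A_one]
    refine dense_VW (H := C.comap (incl _ h.jinj).toLinearMap)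
      ((Submodule.isClosed_topologicalClosure _).preimage (incl _ h.jinj).continuous)
      (fun n => ?_) (fun n => ?_) _
    · change incl _ h.jinj _ ∈ C
      rw [← h.A_one, ← h3, ← one_mul (h.sg _ : BH G), ← h.sym.e_sum, Fin.sum_univ_two, add_mul]
      exact add_mem (h2 _ _ _) (h2 _ _ _)
    · change incl _ h.jinj _ ∈ C
      have h5 : h.w = Sym.e (pa a) h.w 0 1 + Sym.e (pa a) h.w 1 0 :=
        sub_eq_iff_eq_add'.1 h.sym.wp.symm
      rw [← h.A_one, mul_comm, ← MU.sig_mul, ← h3, ← w, h5, add_mul]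
      exact add_mem (h2 _ _ _) (h2 _ _ _)
  let P : Submonoid G :=
    { carrier := {g | dl g ∈ C}
      mul_mem' := fun {x y} hx hy => by
        have := h1 (lam_mem_LG x) (by rwa [lam_dl, mul_one]) hy
        rwa [lam_dl] at this
      one_mem' := by simpa using h4 1 }
  refine top_dl (Submodule.isClosed_topologicalClosure _) (h.gen P ?_ fun k => ?_)
  · have h5 : dl a = (2 : ℂ) • (Sym.e (pa a) h.w 0 0 * h.sg 1) (dl 1) - dl 1 := by
      rw [map_one]
      change _ = (2 : ℂ) • (1 / 2 : ℂ) • (dl 1 + lam a (dl 1)) - _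
      rw [lam_dl, mul_one]
      module
    change dl a ∈ C
    rw [h5]
    exact sub_mem (C.smul_mem _ (h2 _ _ _)) P.one_mem
  induction k using CoprodI.induction_on with
  | one => exact map_one φ ▸ P.one_mem
  | mul x y hx hy => exact map_mul φ x y ▸ P.mul_mem hx hy
  | of o f =>
    cases o with
    | none =>
      have := h4 (.ofAdd ((show Zm from f).toAdd • idU))
      rwa [A_lam, lam_dl, mul_one] at this
    | some i =>
      let k := fun ε => o1 (H := fun j : Bool × Bool => H j.1) (i, ε) f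
      have h8 : ∀ ε, h.z (k ε) = _ := fun ε => h.z1 (i, ε) f
      have h5 : (h.z (k true) : BH G) = h.w * h.z (k false) * h.w := by
        simp only [h8, mm, if_true, mul_inv_rev, W_inv, map_mul, mul_assoc, Submonoid.coe_mul,
          Bool.false_eq_true, if_false, mul_one]
        rfl
      have h6 : (h.z (k false) : BH G) (dl 1) ∈ C := by
        rw [← h.sym.split (x := (h.z (k false) : BH G)), ← h5]
        exact add_mem (h2 (k false) 0 0) (h2 (k true) 1 1)
      have h7 := h1 (h.A_mem (mm (i, false))) (h4 _) (h1 (h.z_mem _) h6 (h4 (mm (i, false))⁻¹))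
      simp only [h8, Submonoid.coe_mul, mul_ap, A_A, mul_inv_cancel, map_one] at h7
      change lam _ (dl 1) ∈ C at h7
      rwa [lam_dl, mul_one] at h7

end DS

end Vale.Agent.N086
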