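import Vale.Agent.N086.Dih
import Vale.Agent.N086.Defs
import Mathlib.GroupTheory.NoncommCoprod

/-!
The free product of `C₂ × H₀` and `C₂ × H₁` is in the dihedral situation, and
`L(C₂ × ℤ)` is isomorphic to `L(ℤ)`.
-/

namespace Vale.Agent.N086

open Vale.Agent.P086 Vale.Agent.P086.H677 Monoid

/-- the generator of `C₂` -/
def g2 : C2 := .ofAdd 1

theorem c2_cases (c : C2) : c = 1 ∨ c = g2 := by revert c; decide

theorem g2_sq : g2 * g2 = 1 := by decide

/-- the homomorphism on `C₂` given by an involution -/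
def z2 {Γ : Type} [Group Γ] (x : Γ) (hx : x * x = 1) : C2 →* Γ where
  toFun c := x ^ c.toAdd.val
  map_one' := pow_zero x
  map_mul' c d := by
    rw [toAdd_mul, ZMod.val_add, ← pow_add, ← pow_eq_pow_mod _ ((pow_two x).trans hx)]

theorem z2_g {Γ : Type} [Group Γ] (x : Γ) (hx : x * x = 1) : z2 x hx g2 = x := pow_one x

theorem frame_of {G K : Type} [Group G] [Group K] {π : G →* unitary (BH K)}
    (h1 : ∀ g, (π g : BH K) ∈ LG K) (h2 : ∀ g, g ≠ 1 → tau (π g : BH K) = 0)
    (h3 : ∀ H : Submodule ℂ (Ell2 K), IsClosed (H : Set (Ell2 K)) →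
      (∀ g, (π g : BH K) (dl 1) ∈ H) → ∀ ξ, ξ ∈ H) : Frame π := by
  refine ⟨h1, h2, fun ξ ε hε => ?_⟩
  let f : CG G →ₗ[ℂ] Ell2 K :=
    (ContinuousLinearMap.apply ℂ (Ell2 K) (dl 1)).toLinearMap ∘ₗ (repAlg π).toLinearMap
  obtain ⟨_, ⟨P, rfl⟩, h⟩ := Metric.mem_closure_iff.1 (h3 _
    (LinearMap.range f).isClosed_topologicalClosure (fun g => Submodule.le_topologicalClosure _
      ⟨MonoidAlgebra.single g 1, by
        change repAlg π _ (dl 1) = _
        rw [repAlg_single, one_smul]⟩) ξ) ε hε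
  exact ⟨P, by rwa [dist_comm, dist_eq_norm] at h⟩

theorem sp_c2 : SpIso (C2 × Zm) Zm := by
  let π : C2 × Zm →* Multiplicative U :=
    (z2 (.ofAdd W) (congrArg Multiplicative.ofAdd WW)).coprod (zpowersHom _ (.ofAdd V))
  have h1 : ∀ n, π (1, n) = .ofAdd V ^ n.toAdd := fun n => by simp [π]
  have h2 : ∀ n, π (g2, n) = .ofAdd V ^ n.toAdd * .ofAdd W := fun n => by
    simp [π, z2_g, mul_comm]
  refine spIso_of_frame (op.comp π) (frame_of (fun g => op_mem _) ?_ fun H hc h =>
    dense_VW hc (fun n => ?_) fun n => ?_)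
  · rintro ⟨c, n⟩ hg
    rcases c2_cases c with rfl | rfl
    · rw [MonoidHom.comp_apply, h1]
      exact tau_V fun h => hg (Prod.ext rfl h)
    · rw [MonoidHom.comp_apply, h2]
      exact tau_VW _
  · simpa only [MonoidHom.comp_apply, h1, toAdd_ofAdd] using h (1, .ofAdd n)
  · simpa only [MonoidHom.comp_apply, h2, toAdd_ofAdd] using h (g2, .ofAdd n)

theorem of_ext {ι Γ : Type} {H : ι → Type} [∀ i, Group (H i)] [Group Γ]
    {f g : CoprodI (OF H) →* Γ} (h0 : f (o0 H (.ofAdd 1)) = g (o0 H (.ofAdd 1)))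
    (h1 : ∀ i x, f (o1 i x) = g (o1 i x)) : f = g :=
  CoprodI.ext_hom _ _ fun o => match o with
    | none => MonoidHom.ext_mint h0
    | some i => MonoidHom.ext (h1 i)

/-- the homomorphism given by an element and a family of homomorphisms -/
def ofLift {ι Γ : Type} {H : ι → Type} [∀ i, Group (H i)] [Group Γ] (t : Γ)
    (f : ∀ i, H i →* Γ) : CoprodI (OF H) →* Γ :=
  CoprodI.lift fun o => match o with
    | none => zpowersHom Γ t
    | some i => f i

theorem ofLift0 {ι Γ : Type} {H : ι → Type} [∀ i, Group (H i)] [Group Γ] (t : Γ)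
    (f : ∀ i, H i →* Γ) (n : Zm) : ofLift t f (o0 H n) = t ^ n.toAdd :=
  CoprodI.lift_of (M := OF H) (i := none) _ _

theorem ofLift1 {ι Γ : Type} {H : ι → Type} [∀ i, Group (H i)] [Group Γ] (t : Γ)
    (f : ∀ i, H i →* Γ) (i : ι) (x : H i) : ofLift t f (o1 i x) = f i x :=
  CoprodI.lift_of (M := OF H) (i := some i) _ _

theorem exists_ds (H : Bool → Type) [∀ i, Group (H i)] :
    ∃ (φ : CoprodI (OF H) →* Coprod (C2 × H false) (C2 × H true)) (a : _), DS φ a := by
  let a : Coprod (C2 × H false) (C2 × H true) := Coprod.inl (g2, 1)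
  let b : Coprod (C2 × H false) (C2 × H true) := Coprod.inr (g2, 1)
  have ha : a * a = 1 := by rw [← map_mul, Prod.mk_mul_mk, g2_sq, mul_one]; exact map_one _
  have hb : b * b = 1 := by rw [← map_mul, Prod.mk_mul_mk, g2_sq, mul_one]; exact map_one _
  let φ : CoprodI (OF H) →* Coprod (C2 × H false) (C2 × H true) := ofLift (a * b) fun i =>
    match i with
    | false => Coprod.inl.comp (MonoidHom.inr _ _)
    | true => Coprod.inr.comp (MonoidHom.inr _ _)
  let t := o0 H (.ofAdd 1)
  have ht : φ t = a * b := (ofLift0 _ _ _).trans (zpow_one _)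
  let α : CoprodI (OF H) →* CoprodI (OF H) := ofLift t⁻¹ fun i =>
    match i with
    | false => o1 false
    | true => (MulAut.conj t).toMonoidHom.comp (o1 true)
  have α0 : α t = t⁻¹ := (ofLift0 _ _ _).trans (zpow_one _)
  have α1 : ∀ f, α (o1 false f) = o1 false f := fun f => ofLift1 _ _ _ _
  have α2 : ∀ f, α (o1 true f) = t * o1 true f * t⁻¹ := fun f => ofLift1 _ _ _ _
  have hα : α.comp α = .id _ := of_ext (by
    change α (α t) = t
    rw [α0, map_inv, α0, inv_inv]) fun i f => by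
      cases i
      · exact (congrArg α (α1 f)).trans (α1 f)
      · change α (α (o1 true f)) = o1 true f
        rw [α2, map_mul, map_mul, map_inv, α0, α2]
        group
  have hα' : ∀ k, α (α k) = k := DFunLike.congr_fun hα
  let A : Equiv.Perm (CoprodI (OF H)) := ⟨α, α, hα', hα'⟩
  let L := MulAction.toPermHom (CoprodI (OF H)) (CoprodI (OF H))
  have hA : A * A = 1 := Equiv.ext hα'
  have hk : ∀ k, A * L k = L (α k) * A := fun k => Equiv.ext fun x => map_mul α k x
  have hB : A * L t * (A * L t) = 1 := by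
    rw [← mul_assoc, hk, α0, mul_assoc (L _), hA, mul_one, ← map_mul, inv_mul_cancel, map_one]
  have hc : ∀ {x : Equiv.Perm (CoprodI (OF H))} (hx : x * x = 1) (y), Commute x y →
      ∀ c, Commute (z2 x hx c) y := fun hx y h c => h.pow_left _
  let ψ : Coprod (C2 × H false) (C2 × H true) →* Equiv.Perm (CoprodI (OF H)) := Coprod.lift
    ((z2 A hA).noncommCoprod (L.comp (o1 false)) fun c f => hc hA _ (by
      rw [Commute, SemiconjBy, MonoidHom.comp_apply, hk, α1]) c)
    ((z2 _ hB).noncommCoprod (L.comp (o1 true)) fun c f => hc hB _ (by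
      rw [Commute, SemiconjBy, MonoidHom.comp_apply, mul_assoc, ← map_mul, hk, hk, map_mul, α0, α2,
        ← mul_assoc (L _), ← map_mul L]
      simp [mul_assoc]) c)
  have ψa : ψ a = A := by simp [ψ, a, z2_g]
  have h1 : ψ.comp φ = L := of_ext (by
    rw [MonoidHom.comp_apply, ht, map_mul, ψa]
    simp [ψ, b, t, z2_g, ← mul_assoc, hA]) fun i f => by
      rw [MonoidHom.comp_apply, ofLift1]
      cases i <;> simp [ψ]
  have h2 : ∀ k, ψ (φ k) 1 = k := fun k =>
    (congrArg (fun x => x 1) (DFunLike.congr_fun h1 k)).trans (mul_one k)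
  have h3 : a * (a * b) = b := by rw [← mul_assoc, ha, one_mul]
  refine ⟨φ, a, Function.LeftInverse.injective (g := fun x => ψ x 1) h2, ha, fun k hk => ?_,
    fun n => ?_, fun f => ?_, fun f => ?_, fun P h4 h5 g => ?_⟩
  · have h4 : k = 1 := by rw [← h2 k, hk, ψa]; exact map_one α
    rw [h4, map_one] at hk
    have h5 : α t = t := by
      change A t = t
      rw [← ψa, ← hk, map_one]
      rfl
    rw [α0, ← map_inv] at h5
    exact absurd (show (.ofAdd 1 : Zm)⁻¹ = .ofAdd 1 from CoprodI.of_injective (M := OF H) none h5)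
      (by decide)
  · rw [ofLift0, ofLift0, toAdd_inv, zpow_neg, ← inv_zpow]
    refine SemiconjBy.zpow_right ?_ _
    rw [SemiconjBy, h3, mul_inv_rev, inv_mul_cancel_right, inv_eq_of_mul_eq_one_right hb]
  · rw [ofLift1]
    exact Commute.map (show Commute (g2, (1 : H false)) (1, f) by simp [Commute, SemiconjBy]) _
  · rw [ht, h3, ofLift1]
    exact Commute.map (show Commute (g2, (1 : H true)) (1, f) by simp [Commute, SemiconjBy]) _
  have h6 : b ∈ P := h3 ▸ P.mul_mem h4 (ht ▸ h5 t)
  induction g using Coprod.induction_on with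
  | mul x y hx hy => exact P.mul_mem hx hy
  | inl x =>
    have h7 := h5 (o1 false x.2)
    rw [ofLift1] at h7
    change Coprod.inl (1, x.2) ∈ P at h7
    rcases c2_cases x.1 with h | h
    · rwa [← h] at h7
    · simpa [a, ← map_mul, ← h] using P.mul_mem h4 h7
  | inr x =>
    have h7 := h5 (o1 true x.2)
    rw [ofLift1] at h7
    change Coprod.inr (1, x.2) ∈ P at h7
    rcases c2_cases x.1 with h | h
    · rwa [← h] at h7
    · simpa [b, ← map_mul, ← h] using P.mul_mem h6 h7

end Vale.Agent.N086
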