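import Vale.Agent.N086.Grp
import Mathlib.Data.Matrix.Composition
import Mathlib.LinearAlgebra.Matrix.Reindex
import Mathlib.LinearAlgebra.Matrix.Unique

/-!
Amplifications of the free group factors by powers of two, and free products with `C₂`.
-/

open scoped InnerProductSpace

namespace Vale.Agent.N086

open Vale.Agent.P086 Vale.Agent.P086.H677 Monoid

variable {G K K' : Type} [Group G] [Group K] [Group K'] {ι κ : Type} [Fintype ι] [DecidableEq ι]
  [Fintype κ] [DecidableEq κ]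

/-- the matrices over `L(K)` are isomorphic to `L(G)`, with the traces -/
def MI (ι : Type) [Fintype ι] [DecidableEq ι] (K G : Type) [Group K] [Group G] : Prop :=
  ∃ θ : Matrix ι ι (LG K) ≃⋆ₐ[ℂ] LG G,
    ∀ x, Fintype.card ι * tau (θ x : BH G) = ∑ i, tau (x i i : BH K)

/-- trace preserving isomorphisms -/
def TI (K G : Type) [Group K] [Group G] : Prop :=
  ∃ θ : LG K ≃⋆ₐ[ℂ] LG G, ∀ x, tau (θ x : BH G) = tau (x : BH K)

theorem ti_iff : TI K G ↔ P086L.TraceIso (P086L.L K) (P086L.tau K) (P086L.L G) (P086L.tau G) := by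
  rw [P086L.L_eq, P086L.L_eq, funext (P086L.tau_eq (G := K)), funext (P086L.tau_eq (G := G))]
  rfl

theorem TI.of_sp (h : SpIso K G) : TI K G := ti_iff.2 (P086L.iso_of_sp h)

theorem TI.sp (h : TI K G) : SpIso K G := by
  classical
  obtain ⟨θ, hθ⟩ := h
  have hs : ∀ x, θ (star x) = star (θ x) := θ.map_star'
  let l : K → LG K := fun k => ⟨lam k, lam_mem_LG k⟩
  have h1 : ∀ k k', θ (l k) * θ (l k') = θ (l (k * k')) := fun k k' => by
    rw [← map_mul]
    exact congrArg θ (Subtype.ext (lam_mul k k').symm)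
  have h2 : θ (l 1) = 1 := (congrArg θ (Subtype.ext lam_one)).trans (map_one θ)
  have h3 : ∀ k, star (θ (l k)) = θ (l k⁻¹) := fun k => by
    rw [← hs]
    exact congrArg θ (Subtype.ext (star_lam k))
  let π : K →* unitary (BH G) :=
    { toFun := fun k => ⟨θ (l k), by
        have h4 : θ (l k) ∈ unitary (LG G) := by
          rw [Unitary.mem_iff, h3, h1, h1, inv_mul_cancel, mul_inv_cancel, h2, and_self]
        exact ⟨congrArg Subtype.val h4.1, congrArg Subtype.val h4.2⟩⟩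
      map_one' := Subtype.ext (congrArg (fun x : LG G => (x : BH G)) h2)
      map_mul' := fun k k' => Subtype.ext (congrArg (fun x : LG G => (x : BH G)) (h1 k k').symm) }
  refine spIso_of_frame π (frame_of (fun k => (θ _).2) (fun k hk => (hθ _).trans ?_)
    fun H hc h => top_dl hc fun g => ?_)
  · change lam k (dl 1) 1 = 0
    rw [lam_dl, mul_one, dl_apply, if_neg hk.symm]
  have h4 : ∀ x : LG K, ‖(θ x : BH G) (dl 1)‖ = ‖(x : BH K) (dl 1)‖ := fun x => by
    have h5 := hθ (star x * x)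
    rw [map_mul, hs] at h5
    rw [norm_eq_sqrt_re_inner (𝕜 := ℂ), norm_eq_sqrt_re_inner (𝕜 := ℂ), ← tau_star_mul,
      ← tau_star_mul]
    exact congrArg (fun z => Real.sqrt (RCLike.re z)) h5
  obtain ⟨x, hx⟩ := EquivLike.surjective θ ⟨lam g, lam_mem_LG g⟩
  let D : Submodule ℂ (Ell2 K) := ((H.comap ((ContinuousLinearMap.apply ℂ (Ell2 G)
    (dl 1)).toLinearMap ∘ₗ (LG G).toSubalgebra.val.toLinearMap ∘ₗ θ.toAlgEquiv.toLinearMap)).map
      ((ContinuousLinearMap.apply ℂ (Ell2 K) (dl 1)).toLinearMap ∘ₗ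
        (LG K).toSubalgebra.val.toLinearMap))
  have h5 := top_dl D.isClosed_topologicalClosure (fun k => D.le_topologicalClosure
    ⟨l k, h k, (lam_dl k 1).trans (by rw [mul_one])⟩) ((x : BH K) (dl 1))
  rw [← SetLike.mem_coe, ← hc.closure_eq]
  refine Metric.mem_closure_iff.2 fun ε hε => ?_
  obtain ⟨_, ⟨y, h6, rfl⟩, h7⟩ := Metric.mem_closure_iff.1 h5 ε hε
  refine ⟨_, h6, ?_⟩
  have h8 := h4 (x - y)
  rw [map_sub, hx] at h8
  rw [dist_eq_norm] at h7 ⊢
  refine lt_of_eq_of_lt (Eq.trans ?_ h8) h7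
  change _ = ‖lam g (dl 1) - _‖
  rw [lam_dl, mul_one]
  rfl

theorem MI.trans (h : MI ι K K') (h' : MI κ K' G) : MI (κ × ι) K G := by
  obtain ⟨θ, hθ⟩ := h
  obtain ⟨θ', hθ'⟩ := h'
  refine ⟨((StarAlgEquiv.ofAlgEquiv (Matrix.compAlgEquiv κ ι (LG K) ℂ).symm fun _ => rfl).trans
    (StarAlgEquiv.ofAlgEquiv θ.toAlgEquiv.mapMatrix fun x => Matrix.ext fun i j =>
      map_star θ (x j i))).trans θ', fun x => ?_⟩
  rw [Fintype.card_prod, Nat.cast_mul, mul_comm (_ : ℂ) (Fintype.card ι : ℂ), mul_assoc,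
    StarAlgEquiv.trans_apply, hθ', Finset.mul_sum, Fintype.sum_prod_type]
  exact Finset.sum_congr rfl fun i _ => hθ _

theorem MI.reindex (h : MI ι K G) (e : κ ≃ ι) : MI κ K G := by
  obtain ⟨θ, hθ⟩ := h
  refine ⟨(StarAlgEquiv.ofAlgEquiv (Matrix.reindexAlgEquiv ℂ (LG K) e) fun _ => rfl).trans θ,
    fun x => ?_⟩
  rw [Fintype.card_congr e, StarAlgEquiv.trans_apply, hθ]
  exact e.symm.sum_comp fun i => tau (x i i : BH K)

theorem TI.mi (h : TI K G) : MI Unit K G := by
  obtain ⟨θ, hθ⟩ := h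
  refine ⟨(StarAlgEquiv.ofAlgEquiv Matrix.uniqueAlgEquiv fun _ => rfl).trans θ, fun x => ?_⟩
  rw [Fintype.card_unique, Nat.cast_one, one_mul, Fintype.sum_unique]
  exact hθ (x () ())

theorem MI.congr {G' : Type} [Group G'] (h : MI ι K G) (h1 : SpIso K' K) (h2 : SpIso G G') :
    MI ι K' G' :=
  (((TI.of_sp h1).mi.trans h).trans (TI.of_sp h2).mi).reindex
    ((Equiv.prodPUnit ι).symm.trans (Equiv.punitProd _).symm)

theorem MI.sp [Nonempty ι] {G' : Type} [Group G'] (h : MI ι K G) (h' : MI ι K G') :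
    SpIso G G' := by
  obtain ⟨θ, hθ⟩ := h
  obtain ⟨θ', hθ'⟩ := h'
  refine TI.sp ⟨θ.symm.trans θ', fun x => mul_left_cancel₀
    (Nat.cast_ne_zero.2 (Fintype.card_ne_zero (α := ι))) ?_⟩
  rw [StarAlgEquiv.trans_apply, hθ', ← hθ, StarAlgEquiv.apply_symm_apply]

/-- **The dihedral decomposition.** -/
theorem mi_dih (H : Bool → Type) [∀ i, Group (H i)] :
    MI (Fin 2) (CoprodI (OF fun j : Bool × Bool => H j.1))
      (Coprod (C2 × H false) (C2 × H true)) := by
  obtain ⟨φ, a, h⟩ := exists_ds H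
  exact h.mu.iso 0

theorem mi_free (α β : Type) [Countable α] [Countable β] (h : Nonempty α ∨ Nonempty β) :
    MI (Fin 2) (FreeGroup ℕ) (Coprod (C2 × FreeGroup α) (C2 × FreeGroup β)) := by
  let X : Option (Bool × Bool) → Type := fun o => match o with
    | none => Unit
    | some j => cond j.1 β α
  have : ∀ o, Countable (X o) := by
    rintro (_ | ⟨_ | _, _⟩) <;> simp only [X, cond] <;> infer_instance
  have : Nontrivial (Σ o, X o) := by
    rcases h with ⟨⟨x⟩⟩ | ⟨⟨x⟩⟩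
    · exact ⟨⟨none, ()⟩, ⟨some (false, false), x⟩, by simp⟩
    · exact ⟨⟨none, ()⟩, ⟨some (true, false), x⟩, by simp⟩
  refine (mi_dih fun i => FreeGroup (cond i β α)).congr ((spIso_all _ (Σ o, X o)).trans
    (spIso_of_mulEquiv (CoprodI.FreeGroupBasis.coprodI fun o => ?_).repr.symm))
    (spIso_of_mulEquiv (MulEquiv.refl _))
  exact match o with
    | none => .ofRepr (FreeGroup.mulEquivIntOfUnique (α := Unit)).symm
    | some j => .ofFreeGroup _

theorem sp_sum (α β : Type) : SpIso (Coprod (FreeGroup α) (FreeGroup β)) (FreeGroup (α ⊕ β)) :=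
  spIso_of_mulEquiv (MonoidHom.toMulEquiv
    (Coprod.lift (FreeGroup.map Sum.inl) (FreeGroup.map Sum.inr))
    (FreeGroup.lift (Sum.elim (fun a => Coprod.inl (.of a)) fun b => Coprod.inr (.of b)))
    (by ext <;> simp) (by ext (_ | _) <;> simp))

theorem nt2 : Nontrivial (Unit ⊕ Unit) := ⟨.inl (), .inr (), by simp⟩

theorem sp_c2' : SpIso (C2 × FreeGroup Unit) (FreeGroup Unit) :=
  ((spIso_of_mulEquiv ((MulEquiv.refl _).prodCongr FreeGroup.mulEquivIntOfUnique)).trans
    sp_c2).trans (spIso_of_mulEquiv FreeGroup.mulEquivIntOfUnique.symm)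

theorem mi_two : MI (Fin 2) (FreeGroup ℕ) (FreeGroup ℕ) :=
  have := nt2
  (mi_free Unit Unit (.inl inferInstance)).congr (spIso_all _ _)
    (((spIso_coprod sp_c2' sp_c2').trans (sp_sum _ _)).trans (spIso_all _ _))

theorem sp_prod (α β : Type) [Countable α] [Countable β] (h : Nonempty α ∨ Nonempty β) :
    SpIso (Coprod (C2 × FreeGroup α) (C2 × FreeGroup β)) (FreeGroup ℕ) :=
  (mi_free α β h).sp mi_two

theorem sp_half (α : Type) [Countable α] [Nonempty α] :
    SpIso (Coprod C2 (FreeGroup α)) (FreeGroup ℕ) := by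
  have h1 : SpIso (Coprod C2 (FreeGroup Unit)) (FreeGroup ℕ) :=
    (spIso_coprod (spIso_of_mulEquiv MulEquiv.prodUnique.symm) sp_c2'.symm).trans
      (sp_prod Empty Unit (.inr inferInstance))
  rcases subsingleton_or_nontrivial α with h | h
  · have := uniqueOfSubsingleton (Classical.arbitrary α)
    exact (spIso_coprod (spIso_of_mulEquiv (MulEquiv.refl _))
      (spIso_of_equiv (Equiv.ofUnique _ _))).trans h1
  · have : Nontrivial (ℕ ⊕ Unit) := ⟨.inl 0, .inr (), by simp⟩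
    have := nt2
    exact (((spIso_coprod (spIso_of_mulEquiv (MulEquiv.refl C2)) ((spIso_all α (Unit ⊕ Unit)).trans
      (sp_sum Unit Unit).symm)).trans (spIso_of_mulEquiv (MulEquiv.coprodAssoc _ _ _).symm)).trans
        (spIso_coprod h1 (spIso_of_mulEquiv (MulEquiv.refl (FreeGroup Unit))))).trans
          ((sp_sum ℕ Unit).trans (spIso_all _ ℕ))

theorem mi_pow (j : ℕ) : MI (Fin (2 ^ j)) (FreeGroup ℕ) (FreeGroup ℕ) := by
  induction j with
  | zero => exact (TI.of_sp (spIso_all _ _)).mi.reindex (Equiv.ofUnique (Fin 1) _)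
  | succ j ih => exact (mi_two.trans ih).reindex finProdFinEquiv.symm

theorem vN_eq : vN (del G) = LG G := by
  refine congrArg P086L.bicomm (Set.ext fun T => exists_congr fun g => ⟨fun h => ?_, ?_⟩)
  · exact IsoFrame.op_ext fun k => (lam_dl g k).trans (h k).symm
  · rintro rfl
    exact lam_dl g

theorem lamp_of {t : ℝ} (h : SubAmp (LG K) tau t (LG G)) : LAmp K t G := by
  rw [LAmp, VAmp, vN_eq, vN_eq]
  rwa [← funext (P086L.tau_eq (G := K))] at h

theorem liso_of (h : SpIso K G) : LIso K G := by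
  rw [LIso, VIso, vN_eq, vN_eq]
  exact ⟨(TI.of_sp h).choose⟩

theorem MI.amp_up {k : ℕ} (h : MI (Fin k) K G) : SubAmp (LG K) tau k (LG G) := by
  obtain ⟨θ, -⟩ := h
  refine ⟨k, 1, .one _, le_rfl, by simp [tau_one], ⟨(StarAlgEquiv.ofBijective
    (NonUnitalStarSubalgebraClass.subtype (corner 1 (.one _)))
    ⟨Subtype.val_injective, fun x => ⟨⟨x, x, by simp⟩, rfl⟩⟩).trans θ⟩⟩

theorem corner_iso {A B : Type} [Ring A] [StarRing A] [Algebra ℂ A] [StarModule ℂ A] [Ring B]
    [StarRing B] [Algebra ℂ B] [StarModule ℂ B] (ψ : Matrix ι ι A ≃⋆ₐ[ℂ] B) (o : ι) :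
    ∃ hp, Nonempty (corner (ψ (Matrix.single o o 1)) hp ≃⋆ₐ[ℂ] A) := by
  let e : Matrix ι ι A := Matrix.single o o 1
  have he : IsStarProjection e := ⟨by simp [IsIdempotentElem, e],
    by simp [IsSelfAdjoint, e, Matrix.star_eq_conjTranspose]⟩
  have h1 : ∀ y : Matrix ι ι A, e * y * e = Matrix.single o o (y o o) := fun y => by simp [e]
  let f : A →⋆ₙₐ[ℂ] corner (ψ e) (he.map ψ) :=
    { toFun := fun x => ⟨ψ (Matrix.single o o x), ψ (Matrix.single o o x), by
        simp only [← map_mul, h1, Matrix.single_apply_same]⟩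
      map_smul' := fun c x => Subtype.ext (by simp [← Matrix.smul_single])
      map_zero' := Subtype.ext (by simp)
      map_add' := fun x y => Subtype.ext (by simp [Matrix.single_add])
      map_mul' := fun x y => Subtype.ext (by simp [← map_mul])
      map_star' := fun x => Subtype.ext (by simp [← map_star, Matrix.star_eq_conjTranspose]) }
  refine ⟨he.map ψ, ⟨(StarAlgEquiv.ofBijective f ⟨fun x y hxy => ?_, ?_⟩).symm⟩⟩
  · simpa using congrFun (congrFun (EquivLike.injective ψ (congrArg Subtype.val hxy)) o) o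
  · rintro ⟨_, y, rfl⟩
    obtain ⟨y, rfl⟩ := EquivLike.surjective ψ y
    exact ⟨y o o, Subtype.ext (by simp only [f, ← map_mul, h1]; rfl)⟩

theorem MI.amp_down {k : ℕ} [NeZero k] (h : MI (Fin k) K G) :
    SubAmp (LG G) tau (k : ℝ)⁻¹ (LG K) := by
  obtain ⟨θ, hθ⟩ := h
  obtain ⟨u, hu⟩ := (TI.of_sp (spIso_of_mulEquiv (MulEquiv.refl G))).mi.reindex
    (Equiv.ofUnique (Fin 1) _)
  obtain ⟨h1, h2⟩ := corner_iso (θ.trans u.symm) 0
  refine ⟨1, _, h1, by simpa using Nat.cast_inv_le_one k, ?_, h2⟩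
  have h2 := hθ (Matrix.single 0 0 1)
  rw [Finset.sum_eq_single 0 (fun i _ hi => by simp [hi.symm, tau_zero']) (by simp)] at h2
  simp only [Matrix.single_apply_same, Fintype.card_fin, OneMemClass.coe_one, tau_one] at h2
  rw [← hu, Complex.ofReal_inv, Complex.ofReal_natCast, StarAlgEquiv.trans_apply,
    StarAlgEquiv.apply_symm_apply, Fintype.card_unique, Nat.cast_one, one_mul]
  exact eq_inv_of_mul_eq_one_right h2

theorem amp_two {m n : ℕ∞} (hm : 2 ≤ m) (hn : 2 ≤ n) (j : ℤ) :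
    LAmp (P086L.F n) (2 ^ j) (P086L.F m) := by
  have := P086L.nontriv hm
  have := P086L.nontriv hn
  refine lamp_of ?_
  obtain ⟨i, rfl | rfl⟩ := j.eq_nat_or_neg
  · simpa using ((mi_pow i).congr (spIso_all _ _) (spIso_all _ _)).amp_up
  · simpa using ((mi_pow i).congr (spIso_all _ _) (spIso_all _ _)).amp_down

theorem iso_F {m : ℕ∞} (hm : 2 ≤ m) (h : SpIso G (FreeGroup ℕ)) : LIso G (P086L.F m) :=
  have := P086L.nontriv hm
  liso_of (h.trans (spIso_all _ _))

theorem iso_FF {m n : ℕ∞} (hm : 2 ≤ m) (hn : 2 ≤ n) : LIso (P086L.F m) (P086L.F n) :=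
  have := P086L.nontriv hm
  iso_F hn (spIso_all _ _)

theorem ne_of_le {n : ℕ∞} (hn : 1 ≤ n) : Nonempty {k : ℕ // (k : ℕ∞) < n} :=
  ⟨⟨0, lt_of_lt_of_le (by norm_num) hn⟩⟩

end Vale.Agent.N086
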