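import Vale.Agent.P086L.Br
import Vale.Agent.P086.H677.Amp

/-!
Matrix units in `L(G)` together with a representation of `K` in their commutant give an
isomorphism of the matrices over `L(K)` onto `L(G)`.
-/

set_option linter.unusedSectionVars false

open scoped InnerProductSpace

namespace Vale.Agent.N086

open Vale.Agent.P086 Vale.Agent.P086.H677 ContinuousLinearMap Finset

variable {G K ι : Type} [Group G] [Group K] [Fintype ι] [DecidableEq ι]

theorem mul_ap {X : Type} (A B : BH X) (ξ : Ell2 X) : (A * B) ξ = A (B ξ) := rfl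

theorem one_ap {X : Type} (ξ : Ell2 X) : (1 : BH X) ξ = ξ := rfl

theorem tau_add (A B : BH G) : tau (A + B) = tau A + tau B := rfl

theorem tau_smul (c : ℂ) (A : BH G) : tau (c • A) = c * tau A := rfl

theorem tau_neg (A : BH G) : tau (-A) = -tau A := rfl

theorem tau_zero' : tau (0 : BH G) = 0 := rfl

theorem tau_inner (A : BH G) : tau A = ⟪dl 1, A (dl 1)⟫_ℂ := (inner_dl _ _).symm

theorem tau_one : tau (1 : BH G) = 1 := by
  classical
  change (dl (1 : G) : Ell2 G) 1 = 1
  rw [dl_apply, if_pos rfl]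

theorem tau_sum {κ : Type} (s : Finset κ) (A : κ → BH G) :
    tau (∑ i ∈ s, A i) = ∑ i ∈ s, tau (A i) := by
  simp only [tau_inner, _root_.sum_apply, inner_sum]

/-- matrix units and a commuting representation which together generate `L(G)` -/
structure MU (e : ι → ι → BH G) (σ : K →* unitary (BH G)) : Prop where
  mem : ∀ i j, e i j ∈ LG G
  mul : ∀ i j k l, e i j * e k l = if j = k then e i l else 0
  st : ∀ i j, star (e i j) = e j i
  sum : ∑ i, e i i = 1
  mem' : ∀ k, (σ k : BH G) ∈ LG G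
  comm : ∀ k i j, (σ k : BH G) * e i j = e i j * σ k
  tr : ∀ k, k ≠ 1 → tau (σ k : BH G) = 0
  dense : ∀ ξ : Ell2 G, ξ ∈ (Submodule.span ℂ
    (Set.range fun z : K × ι × ι => ((σ z.1 : BH G) * e z.2.1 z.2.2) (dl 1))).topologicalClosure

variable {e : ι → ι → BH G} {σ : K →* unitary (BH G)}

/-- the normalisation -/
noncomputable def rt (ι : Type) [Fintype ι] : ℂ := (Real.sqrt (Fintype.card ι) : ℝ)

theorem rt_sq : rt ι * rt ι = Fintype.card ι := by
  rw [rt, ← Complex.ofReal_mul, Real.mul_self_sqrt (Nat.cast_nonneg _), Complex.ofReal_natCast]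

theorem rt_conj : (starRingEnd ℂ) (rt ι) = rt ι := Complex.conj_ofReal _

namespace MU

theorem tau_e (h : MU e σ) {x : BH G} (hx : x ∈ LG G) (hc : ∀ i j, x * e i j = e i j * x)
    (i j : ι) : Fintype.card ι * tau (x * e i j) = if i = j then tau x else 0 := by
  have h1 : ∀ i j k, tau (x * e i j) = if j = i then tau (x * e k k) else 0 := fun i j k => by
    have h2 : x * e i j = x * e i k * e k j := by rw [mul_assoc, h.mul, if_pos rfl]
    rw [h2, tau_comm (mul_mem hx (h.mem _ _)) (h.mem _ _), ← mul_assoc, ← hc, mul_assoc, h.mul]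
    split_ifs
    · rfl
    · rw [mul_zero, tau_zero']
  split_ifs with h3
  · subst h3
    conv_rhs => rw [← mul_one x, ← h.sum, mul_sum, tau_sum]
    rw [sum_congr rfl fun k _ => (h1 k k i).trans (if_pos rfl)]
    simp
  · rw [h1 i j i, if_neg (Ne.symm h3), mul_zero]

theorem star_sig (k : K) : star (σ k : BH G) = σ k⁻¹ := by
  rw [map_inv]
  rfl

theorem sig_mul (k l : K) : (σ k : BH G) * σ l = σ (k * l) := by
  rw [map_mul]
  rfl

/-- the basis vectors -/
noncomputable def v (e : ι → ι → BH G) (σ : K →* unitary (BH G)) (i j : ι) (k : K) : Ell2 G :=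
  rt ι • ((σ k : BH G) * e i j) (dl 1)

theorem inner_v (h : MU e σ) {T : BH G} (hT : T ∈ LG G) (i j l m : ι) (k k' : K) :
    ⟪v e σ i j k, T (v e σ l m k')⟫_ℂ =
      if m = j then Fintype.card ι * tau (T * ((σ (k' * k⁻¹) : BH G) * e l i)) else 0 := by
  rw [v, v, map_smul, inner_smul_left, inner_smul_right, rt_conj, ← mul_assoc, rt_sq,
    ← mul_ap T, ← tau_star_mul, tau_comm (star_mem (mul_mem (h.mem' _) (h.mem _ _)))
      (mul_mem hT (mul_mem (h.mem' _) (h.mem _ _))), star_mul, h.st, star_sig, mul_assoc,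
    mul_assoc, ← mul_assoc (e l m), h.mul]
  split_ifs
  · rw [← h.comm, ← mul_assoc (σ k' : BH G), sig_mul]
  · simp [tau_zero']

theorem inner_vv (h : MU e σ) [DecidableEq K] (i j l m : ι) (k k' : K) :
    ⟪v e σ i j k, v e σ l m k'⟫_ℂ = if (i = l ∧ j = m) ∧ k = k' then 1 else 0 := by
  have h1 := h.inner_v (one_mem _) i j l m k k'
  rw [one_ap, one_mul, h.tau_e (h.mem' _) (h.comm _)] at h1
  rw [h1]
  by_cases h2 : k = k'
  · subst h2
    rw [mul_inv_cancel, map_one, show ((1 : unitary (BH G)) : BH G) = 1 from rfl, tau_one]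
    simp only [and_true, @eq_comm _ i, @eq_comm _ j]
    by_cases h3 : m = j <;> by_cases h4 : l = i <;> simp [h3, h4]
  · rw [h.tr _ fun h3 => h2 (mul_inv_eq_one.1 h3).symm]
    simp [h2]

theorem orth (h : MU e σ) (i j : ι) : Orthonormal ℂ (v e σ i j) := by
  classical
  rw [orthonormal_iff_ite]
  intro k k'
  simp [h.inner_vv]

/-- the isometries -/
noncomputable def W (h : MU e σ) (i j : ι) : Ell2 K →L[ℂ] Ell2 G :=
  (isoOf (v e σ i j) (h.orth i j)).toContinuousLinearMap

theorem W_dl (h : MU e σ) (i j : ι) (k : K) : h.W i j (dl k) = v e σ i j k :=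
  isoOf_dl _ (h.orth i j) _

theorem coef (h : MU e σ) (T : BH G) (i j l m : ι) (k k' : K) :
    (adjoint (h.W i j) ∘L T ∘L h.W l m) (dl k') k = ⟪v e σ i j k, T (v e σ l m k')⟫_ℂ := by
  rw [← inner_dl, comp_apply, comp_apply, adjoint_inner_right, W_dl, W_dl]

theorem WW (h : MU e σ) (i j l m : ι) :
    adjoint (h.W i j) ∘L h.W l m = if i = l ∧ j = m then 1 else 0 := by
  classical
  refine IsoFrame.op_ext fun k' => lp.ext (funext fun k => ?_)
  have := h.coef 1 i j l m k k'
  rw [one_def, id_comp] at this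
  rw [this, id_apply, h.inner_vv]
  by_cases h1 : i = l ∧ j = m
  · simp only [h1, true_and, if_true, one_ap, dl_apply]
  · simp [h1]

theorem WW' (h : MU e σ) (i j l m : ι) (ξ : Ell2 K) :
    adjoint (h.W i j) (h.W l m ξ) = if i = l ∧ j = m then ξ else 0 := by
  rw [← comp_apply, h.WW]
  split_ifs <;> rfl

theorem sumW (h : MU e σ) (ξ : Ell2 G) : ∑ i, ∑ j, h.W i j (adjoint (h.W i j) ξ) = ξ := by
  have h1 : ∑ i, ∑ j, h.W i j ∘L adjoint (h.W i j) = 1 := by
    refine ContinuousLinearMap.ext_on (Submodule.dense_iff_topologicalClosure_eq_top.2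
      (eq_top_iff.2 fun ξ _ => h.dense ξ)) ?_
    rintro _ ⟨⟨k, a, b⟩, rfl⟩
    have h2 : rt ι ≠ 0 := fun h3 => by
      have := rt_sq (ι := ι)
      rw [h3, mul_zero, eq_comm, Nat.cast_eq_zero] at this
      exact (Fintype.card_pos_iff.2 ⟨a⟩).ne' this
    have h3 : ((σ k : BH G) * e a b) (dl 1) = (rt ι)⁻¹ • h.W a b (dl k) := by
      rw [W_dl, v, smul_smul, inv_mul_cancel₀ h2, one_smul]
    dsimp only
    rw [h3, map_smul, map_smul]
    simp [_root_.sum_apply, h.WW', ite_and, apply_ite]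
  simpa [_root_.sum_apply] using congrArg (fun T : BH G => T ξ) h1

theorem sig_W (h : MU e σ) (k : K) (i j : ι) (ξ : Ell2 K) :
    (σ k : BH G) (h.W i j ξ) = h.W i j (lam k ξ) := by
  have : (σ k : BH G) ∘L h.W i j = h.W i j ∘L lam k := IsoFrame.op_ext fun l => by
    rw [comp_apply, comp_apply, lam_dl, W_dl, W_dl, v, v, map_smul, ← mul_ap, ← mul_assoc,
      sig_mul]
  exact congrArg (fun T : Ell2 K →L[ℂ] Ell2 G => T ξ) this

theorem e_W (h : MU e σ) (a b i j : ι) (ξ : Ell2 K) :
    e a b (h.W i j ξ) = if b = i then h.W a j ξ else 0 := by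
  have : e a b ∘L h.W i j = if b = i then h.W a j else 0 := IsoFrame.op_ext fun l => by
    rw [comp_apply, W_dl, v, map_smul, ← mul_ap, ← mul_assoc, ← h.comm, mul_assoc, h.mul]
    split_ifs
    · rw [W_dl, v]
    · simp
  rw [← comp_apply, this]
  split_ifs <;> rfl

/-- the homomorphism -/
noncomputable def th (h : MU e σ) (x : Matrix ι ι (BH K)) : BH G :=
  ∑ i, ∑ l, ∑ j, h.W i j ∘L x i l ∘L adjoint (h.W l j)

theorem th_W (h : MU e σ) (x : Matrix ι ι (BH K)) (l j : ι) (ξ : Ell2 K) :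
    h.th x (h.W l j ξ) = ∑ i, h.W i j (x i l ξ) := by
  simp [th, _root_.sum_apply, h.WW', ite_and, apply_ite]

theorem ext_W (h : MU e σ) {A B : BH G} (H : ∀ i j ξ, A (h.W i j ξ) = B (h.W i j ξ)) : A = B := by
  ext1 ξ
  rw [← h.sumW ξ]
  simp only [map_sum, H]

theorem th_mul (h : MU e σ) (x y : Matrix ι ι (BH K)) : h.th (x * y) = h.th x * h.th y :=
  h.ext_W fun l j ξ => by
    simp only [mul_ap, th_W, map_sum, Matrix.mul_apply, _root_.sum_apply]
    exact sum_comm

theorem th_star (h : MU e σ) (x : Matrix ι ι (BH K)) : h.th (star x) = star (h.th x) := by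
  simp only [th, star_eq_adjoint, map_sum, adjoint_comp, adjoint_adjoint, Matrix.star_apply,
    comp_assoc]
  exact sum_comm

theorem th_ent (h : MU e σ) (x : Matrix ι ι (BH K)) (i l j : ι) :
    adjoint (h.W i j) ∘L h.th x ∘L h.W l j = x i l := by
  ext1 ξ
  simp [th_W, h.WW']

theorem th_mem (h : MU e σ) {x : Matrix ι ι (BH K)} (hx : ∀ i l, x i l ∈ LG K) :
    h.th x ∈ LG G := by
  refine (IsoFrame.mem_LG_iff _).2 fun S hS => h.ext_W fun l j ξ => ?_
  have h1 : ∀ T ∈ LG G, ∀ η, S (T η) = T (S η) := fun T hT η =>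
    congrArg (fun A : BH G => A η) ((IsoFrame.mem_LG_iff _).1 hT S hS)
  have h2 : ∀ a b i j η, adjoint (h.W a b) (S (h.W i j η)) =
      if a = i then adjoint (h.W l b) (S (h.W l j η)) else 0 := fun a b i j η => by
    refine ext_inner_left ℂ fun ζ => ?_
    have h3 : h.W a b ζ = e a l (h.W l b ζ) := by rw [e_W, if_pos rfl]
    rw [adjoint_inner_right, h3, ← adjoint_inner_right, ← star_eq_adjoint, h.st,
      ← h1 _ (h.mem _ _), e_W]
    split_ifs
    · rw [adjoint_inner_right]
    · simp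
  have h4 : ∀ b i η, adjoint (h.W l b) (S (h.W l j (x i l η))) =
      x i l (adjoint (h.W l b) (S (h.W l j η))) := fun b i η => by
    refine congrArg (fun A : BH K => A η) ((IsoFrame.mem_LG_iff _).1 (hx i l)
      (adjoint (h.W l b) ∘L S ∘L h.W l j) ((IsoFrame.mem_comm_lam_iff _).2 fun k => ?_))
    ext1 ζ
    refine ext_inner_left ℂ fun ζ' => ?_
    simp only [mul_ap, comp_apply]
    rw [← h.sig_W, h1 _ (h.mem' k), adjoint_inner_right, ← adjoint_inner_left (lam k),
      ← adjoint_inner_left (σ k : BH G), ← star_eq_adjoint, ← star_eq_adjoint, star_lam, star_sig,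
      sig_W, adjoint_inner_right]
  have h5 : ∀ i η, S (h.W i j η) = ∑ b, h.W i b (adjoint (h.W l b) (S (h.W l j η))) := by
    intro i η
    rw [← h.sumW (S (h.W i j η)), sum_eq_single i (fun a _ ha => by simp [h2 a, ha]) (by simp)]
    exact sum_congr rfl fun b _ => by rw [h2 i, if_pos rfl]
  rw [mul_ap, mul_ap, th_W, map_sum, sum_congr rfl fun i _ => h5 i _, h5 l ξ, map_sum, sum_comm]
  simp only [th_W, h4]

theorem th_surj (h : MU e σ) (o : ι) {T : BH G} (hT : T ∈ LG G) :
    ∃ x : Matrix ι ι (BH K), (∀ i l, x i l ∈ LG K) ∧ h.th x = T := by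
  refine ⟨Matrix.of fun i l => adjoint (h.W i o) ∘L T ∘L h.W l o, fun i l => ?_,
    h.ext_W fun l m ξ => ?_⟩
  · refine mem_LG_of_comm_rho _ fun g => IsoFrame.op_ext fun k' => lp.ext (funext fun k => ?_)
    rw [Matrix.of_apply, mul_ap, mul_ap, rho_dl, rho_apply, coef, coef, h.inner_v hT, h.inner_v hT,
      mul_inv_rev, inv_inv, mul_assoc k']
  · have h1 : ∀ i j, adjoint (h.W i j) ∘L T ∘L h.W l m =
        if m = j then adjoint (h.W i o) ∘L T ∘L h.W l o else 0 := fun i j =>
      IsoFrame.op_ext fun k' => lp.ext (funext fun k => by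
        rw [coef, h.inner_v hT]
        split_ifs
        · rw [coef, h.inner_v hT, if_pos rfl]
        · rfl)
    rw [th_W, ← h.sumW (T _)]
    refine sum_congr rfl fun i _ => ?_
    rw [sum_eq_single m (fun j _ hj => ?_) (by simp)]
    · exact congrArg (fun A : BH K => h.W i m (A ξ)) ((h1 i m).trans (if_pos rfl)).symm
    · exact (congrArg (fun A : BH K => h.W i j (A ξ)) ((h1 i j).trans (if_neg hj.symm))).trans
        (by simp)

theorem tau_th (h : MU e σ) (x : Matrix ι ι (BH K)) :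
    Fintype.card ι * tau (h.th x) = ∑ i, tau (x i i) := by
  have h1 : rt ι • (dl 1 : Ell2 G) = ∑ i, h.W i i (dl 1) := by
    simp only [W_dl, v, map_one]
    rw [← smul_sum, ← _root_.sum_apply, ← mul_sum, h.sum]
    rfl
  rw [tau_inner, ← rt_sq, mul_assoc, ← inner_smul_right, ← map_smul, ← rt_conj, ← inner_smul_left,
    rt_conj, h1]
  simp only [map_sum, th_W, inner_sum, sum_inner, ← adjoint_inner_right (h.W _ _), WW', tau_inner]
  refine sum_congr rfl fun i _ => ?_
  rw [sum_eq_single i (fun j _ hj => sum_eq_zero fun a _ => by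
    rw [if_neg (by rintro ⟨rfl, rfl⟩; exact hj rfl), inner_zero_right]) (by simp)]
  simp [apply_ite]

/-- **Matrix decomposition.** -/
theorem iso (h : MU e σ) (o : ι) : ∃ θ : Matrix ι ι (LG K) ≃⋆ₐ[ℂ] LG G,
    ∀ x, Fintype.card ι * tau (θ x : BH G) = ∑ i, tau (x i i : BH K) := by
  let f : Matrix ι ι (LG K) →⋆ₙₐ[ℂ] LG G :=
    { toFun := fun x => ⟨h.th (x.map Subtype.val), h.th_mem fun i l => (x i l).2⟩
      map_smul' := fun c x => Subtype.ext (h.ext_W fun l j ξ => by simp [th_W, smul_sum])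
      map_zero' := Subtype.ext (h.ext_W fun l j ξ => by simp [th_W])
      map_add' := fun x y => Subtype.ext (h.ext_W fun l j ξ => by simp [th_W, sum_add_distrib])
      map_mul' := fun x y => Subtype.ext (by
        refine Eq.trans ?_ (h.th_mul (x.map Subtype.val) (y.map Subtype.val))
        exact congrArg h.th (Matrix.map_mul (L := x) (M := y) (f := (LG K).subtype)))
      map_star' := fun x => Subtype.ext (h.th_star (x.map Subtype.val)) }
  refine ⟨StarAlgEquiv.ofBijective f ⟨fun x y hxy => ?_, fun T => ?_⟩, fun x => h.tau_th _⟩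
  · ext1 i l
    have h1 : h.th (x.map Subtype.val) = h.th (y.map Subtype.val) := congrArg Subtype.val hxy
    refine Subtype.ext ((h.th_ent (x.map Subtype.val) i l o).symm.trans ?_)
    rw [h1, th_ent]
    rfl
  · obtain ⟨x, h1, h2⟩ := h.th_surj o T.2
    exact ⟨fun i l => ⟨x i l, h1 i l⟩, Subtype.ext h2⟩

end MU

end Vale.Agent.N086
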