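import Vale.Agent.N086.Main

namespace Vale.Agent.N086.OldAmplify

open Vale.Agent.N086
open Vale.Agent.P086L (F)

/-- (1) The amplification of `L(F_n)` by any integer power of two is isomorphic to `L(F_m)`.
(2) `L(C₂ * F_n)` and (3) `L((C₂ × F_k) * (C₂ × F_l))` are isomorphic to `L(F_m)`. -/
theorem oldAmplify :
    (∀ m n : ℕ∞, 2 ≤ m → 2 ≤ n → ∀ j : ℤ, LAmp (F n) (2 ^ j) (F m)) ∧
    (∀ m n : ℕ∞, 2 ≤ m → 1 ≤ n → LIso (Monoid.Coprod C2 (F n)) (F m)) ∧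
    ∀ m k l : ℕ∞, 2 ≤ m → 1 ≤ k ∨ 1 ≤ l → LIso (Monoid.Coprod (C2 × F k) (C2 × F l)) (F m) :=
  ⟨fun _ _ => amp_two,
    fun _ _ hm hn => have := ne_of_le hn; iso_F hm (sp_half _),
    fun _ _ _ hm h => iso_F hm (sp_prod _ _ (h.imp ne_of_le ne_of_le))⟩

end Vale.Agent.N086.OldAmplify
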